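import Vale.Agent.P277Z.FI.Sk
import Vale.Agent.P277Z.Lo.Base

/-!
# P277Z: the calculus of divisors on models
-/

set_option linter.all false

open Set Filter Topology
open Vale.Agent.P297 (Place)
open Vale.Agent.P297Z.Pl

noncomputable section

namespace Vale.Agent.P277Z.FI

variable {n N : ℕ} {K : Type} [Field K] [Algebra ℂ K]

theorem mkDiv_apply {c : Place K → ℝ} (h : (Function.support c).Finite) (P : Place K) :
    mkDiv c P = c P := by
  rw [mkDiv, dif_pos h]; rfl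

theorem mkDiv_zero {c : Place K → ℝ} {P : Place K} (h : c P = 0) : mkDiv c P = 0 := by
  by_cases hc : (Function.support c).Finite
  · rw [mkDiv_apply hc, h]
  · rw [mkDiv, dif_neg hc]; rfl

theorem ord_prod (Q : Place K) {ι : Type*} (s : Finset ι) {f : ι → K} (h : ∀ i ∈ s, f i ≠ 0) :
    Q.ord (∏ i ∈ s, f i) = ∑ i ∈ s, Q.ord (f i) := by
  classical
  induction s using Finset.induction_on with
  | empty => simp
  | insert i s hi ih =>
    have h' : ∀ j ∈ s, f j ≠ 0 := fun j hj => h j (Finset.mem_insert_of_mem hj)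
    rw [Finset.prod_insert hi, Finset.sum_insert hi, ord_mul Q (h i (Finset.mem_insert_self _ _))
      (Finset.prod_ne_zero_iff.2 h'), ih h']

namespace IsInt

variable {D E : Div K}

theorem zero : IsInt (0 : Div K) := fun _ => ⟨0, by simp⟩

theorem add (h : IsInt D) (h' : IsInt E) : IsInt (D + E) := fun P =>
  let ⟨a, ha⟩ := h P
  let ⟨b, hb⟩ := h' P
  ⟨a + b, by simp [ha, hb]⟩

theorem zsmul (h : IsInt D) (k : ℤ) : IsInt ((k : ℝ) • D) := fun P =>
  let ⟨a, ha⟩ := h P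
  ⟨k * a, by simp [ha]⟩

theorem nsmul (h : IsInt D) (k : ℕ) : IsInt ((k : ℝ) • D) := by simpa using zsmul h k

theorem neg (h : IsInt D) : IsInt (-D) := fun P =>
  let ⟨a, ha⟩ := h P
  ⟨-a, by simp [ha]⟩

theorem sub (h : IsInt D) (h' : IsInt E) : IsInt (D - E) := by
  rw [sub_eq_add_neg]; exact add h (neg h')

theorem sum {ι : Type*} (s : Finset ι) {D : ι → Div K} (h : ∀ i ∈ s, IsInt (D i)) :
    IsInt (∑ i ∈ s, D i) :=
  Finset.sum_induction D IsInt (fun _ _ => add) zero h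

theorem single (P : Place K) : IsInt (Finsupp.single P (1 : ℝ)) := fun Q => by
  classical
  rw [Finsupp.single_apply]
  split_ifs
  exacts [⟨1, by simp⟩, ⟨0, by simp⟩]

theorem fsum (h : IsInt D) (c : Place K → ℤ) : ∃ k : ℤ, (D.sum fun R a => a * (c R : ℝ)) = k := by
  choose e he using h
  exact ⟨∑ R ∈ D.support, e R * c R, by simp [Finsupp.sum, he]⟩

end IsInt

variable {M : Mdl n N K}

theorem dv_iff {D : Div K} : M.Dv D ↔ ∀ P, ¬ M.Pr P → D P = 0 :=
  ⟨fun h P hP => by_contra fun e => hP (h P (Finsupp.mem_support_iff.2 e)),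
    fun h P hP => by_contra fun e => Finsupp.mem_support_iff.1 hP (h P e)⟩

theorem dv_zero : M.Dv 0 := dv_iff.2 fun _ _ => rfl

theorem dv_add {D E : Div K} (h : M.Dv D) (h' : M.Dv E) : M.Dv (D + E) :=
  dv_iff.2 fun P hP => by simp [dv_iff.1 h P hP, dv_iff.1 h' P hP]

theorem dv_sub {D E : Div K} (h : M.Dv D) (h' : M.Dv E) : M.Dv (D - E) :=
  dv_iff.2 fun P hP => by simp [dv_iff.1 h P hP, dv_iff.1 h' P hP]

theorem dv_smul {D : Div K} (h : M.Dv D) (c : ℝ) : M.Dv (c • D) :=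
  dv_iff.2 fun P hP => by simp [dv_iff.1 h P hP]

theorem dv_sum {ι : Type*} (s : Finset ι) {D : ι → Div K} (h : ∀ i ∈ s, M.Dv (D i)) :
    M.Dv (∑ i ∈ s, D i) :=
  Finset.sum_induction D M.Dv (fun _ _ => dv_add) dv_zero h

theorem dv_single {P : Place K} (h : M.Pr P) (c : ℝ) : M.Dv (Finsupp.single P c) :=
  dv_iff.2 fun Q hQ => Finsupp.single_eq_of_ne (by rintro rfl; exact hQ h)

theorem dv_ext {D E : Div K} (h : M.Dv D) (h' : M.Dv E) (e : ∀ P, M.Pr P → D P = E P) : D = E :=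
  Finsupp.ext fun P => by
    by_cases hP : M.Pr P
    · exact e P hP
    · rw [dv_iff.1 h P hP, dv_iff.1 h' P hP]

theorem dv_div (f : K) : M.Dv (M.div f) := dv_iff.2 fun P hP => mkDiv_zero (if_neg hP)

theorem div_apply (hL : Loc M) (f : K) {P : Place K} (hP : M.Pr P) : M.div f P = P.ord f := by
  classical
  rw [Mdl.div, mkDiv_apply, if_pos hP]
  refine (hL.fin f).subset fun Q hQ => ?_
  by_cases h : M.Pr Q
  · exact ⟨h, by simpa [h] using hQ⟩
  · simp [h] at hQ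

theorem int_div (hL : Loc M) (f : K) : IsInt (M.div f) := fun P => by
  by_cases hP : M.Pr P
  · exact ⟨_, div_apply hL f hP⟩
  · exact ⟨0, by simpa using dv_iff.1 (dv_div f) P hP⟩

theorem div_mul (hL : Loc M) {f g : K} (hf : f ≠ 0) (hg : g ≠ 0) :
    M.div (f * g) = M.div f + M.div g :=
  dv_ext (dv_div _) (dv_add (dv_div _) (dv_div _)) fun P hP => by
    simp [div_apply hL _ hP, ord_mul P hf hg]

theorem div_zpow (hL : Loc M) (f : K) (k : ℤ) : M.div (f ^ k) = (k : ℝ) • M.div f :=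
  dv_ext (dv_div _) (dv_smul (dv_div _) _) fun P hP => by
    simp [div_apply hL _ hP, ord_zpow]

theorem div_one (hL : Loc M) : M.div (1 : K) = 0 := by simpa using div_zpow hL 1 0

theorem div_inv (hL : Loc M) (f : K) : M.div f⁻¹ = -M.div f := by simpa using div_zpow hL f (-1)

theorem mem_H0 {D : Div K} {f : K} :
    f ∈ M.H0 D ↔ f = 0 ∨ ∀ P, M.Pr P → 0 ≤ (P.ord f : ℝ) + D P := Iff.rfl

theorem fam_H0 (M : Mdl n N K) : P277Z.Gr.Fam M.H0 where
  one := Or.inr fun P _ => by simp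
  mul := by
    intro a b f g hf hg
    refine or_iff_not_imp_left.2 fun h P hP => ?_
    have h1 := hf.resolve_left (left_ne_zero_of_mul h) P hP
    have h2 := hg.resolve_left (right_ne_zero_of_mul h) P hP
    rw [ord_mul P (left_ne_zero_of_mul h) (right_ne_zero_of_mul h)]
    simp only [Int.cast_add, Finsupp.add_apply]
    linarith

theorem H0_mono {D E : Div K} (h : D ≤ E) : M.H0 D ≤ M.H0 E := fun _ hf =>
  hf.imp_right fun k P hP => (k P hP).trans (by linarith [h P])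

theorem one_mem_H0 {D : Div K} (h : 0 ≤ D) : (1 : K) ∈ M.H0 D := H0_mono h (fam_H0 M).one

theorem mem_H0_div (hL : Loc M) {D : Div K} {f : K} (h : 0 ≤ M.div f + D) : f ∈ M.H0 D :=
  Or.inr fun P hP => by simpa [div_apply hL f hP] using h P

theorem div_add_nonneg (hL : Loc M) {D : Div K} (hD : M.Dv D) {f : K} (hf : f ∈ M.H0 D)
    (h0 : f ≠ 0) : 0 ≤ M.div f + D := fun P => by
  by_cases hP : M.Pr P
  · simpa [div_apply hL f hP] using hf.resolve_left h0 P hP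
  · simp [dv_iff.1 hD P hP, dv_iff.1 (dv_div f) P hP]

theorem mul_zpow_mem (hL : Loc M) {D : Div K} {f t : K} (hf : f ∈ M.H0 D) (ht : t ≠ 0) (k : ℤ) :
    f * t ^ k ∈ M.H0 (D - (k : ℝ) • M.div t) := by
  have h : t ^ k ∈ M.H0 (-((k : ℝ) • M.div t)) := mem_H0_div hL (by rw [div_zpow hL]; simp)
  rw [sub_eq_add_neg]; exact (fam_H0 M).mul hf h

theorem mem_ring_of_H0 {D : Div K} {f : K} {P : Place K} (hf : f ∈ M.H0 D) (hP : M.Pr P)
    (hD : D P = 0) : f ∈ P.ring := by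
  by_cases h0 : f = 0
  · rw [h0]; exact zero_mem _
  · have := hf.resolve_left h0 P hP
    rw [hD, add_zero] at this
    exact (ord_nonneg_iff P h0).1 (by exact_mod_cast this)

theorem O₀_le {f : K} (hf : f ∈ M.O₀) (x : M.F) : f ∈ M.O x := Algebra.mem_iInf.1 hf x

theorem O₀_ring {f : K} (hf : f ∈ M.O₀) {P : Place K} (hP : M.Pr P) : f ∈ P.ring :=
  let ⟨x, _, ht⟩ := hP
  ht.le _ (O₀_le hf x)

theorem amp_div (hL : Loc M) (hP : Pos M) {A : Div K} (hA : M.Amp A) {f : K} (hf : f ≠ 0) (t : ℝ) :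
    M.Amp (A + t • M.div f) := by
  have key : ∀ (g : K) (t : ℝ), g ≠ 0 → 0 < t → M.Amp (A + t • M.div g) := fun g t hg ht => by
    have := hP.smul _ t ht (hP.div _ g hg (hP.smul _ t⁻¹ (inv_pos.2 ht) hA))
    rwa [smul_add, smul_smul, mul_inv_cancel₀ ht.ne', one_smul] at this
  rcases lt_trichotomy t 0 with h | h | h
  · have := key f⁻¹ (-t) (inv_ne_zero hf) (neg_pos.2 h)
    rwa [div_inv hL, smul_neg, neg_smul, neg_neg] at this
  · simpa [h] using hA
  · exact key f t hf h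

theorem snc_mono {T T' : Set (Place K)} (h : M.Snc T) (e : T' ⊆ T) : M.Snc T' :=
  ⟨fun P hP => h.1 P (e hP), fun x =>
    let ⟨t, h1, h2⟩ := h.2 x
    ⟨t, h1, fun P hP => h2 P (e hP)⟩⟩

/-! ### local equations -/

theorem gn_ne {x : M.F} {P : Place K} {t : K} (h : M.Gn x P t) : t ≠ 0 := fun e => by
  have := h.ord
  rw [e, ord_zero] at this
  exact zero_ne_one this

theorem eqn_gn {x : M.F} {P : Place K} (h : M.On x P) : M.Gn x P (M.eqn x P) := by
  rw [Mdl.eqn, dif_pos h]; exact h.choose_spec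

theorem eqn_off {x : M.F} {P : Place K} (h : ¬ M.On x P) : M.eqn x P = 1 := dif_neg h

theorem eqn_mem (x : M.F) (P : Place K) : M.eqn x P ∈ M.O x := by
  by_cases h : M.On x P
  · exact (eqn_gn h).mem
  · rw [eqn_off h]; exact one_mem _

theorem eqn_ne (x : M.F) (P : Place K) : M.eqn x P ≠ 0 := by
  by_cases h : M.On x P
  · exact gn_ne (eqn_gn h)
  · rw [eqn_off h]; exact one_ne_zero

open Classical in
theorem ord_eqn (hL : Loc M) {x : M.F} {Q : Place K} (hQ : M.On x Q) (P : Place K) :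
    Q.ord (M.eqn x P) = if P = Q then 1 else 0 := by
  split_ifs with h
  · rw [h]; exact (eqn_gn hQ).ord
  · by_cases hP : M.On x P
    · exact hL.other x P Q _ (eqn_gn hP) hQ (Ne.symm h)
    · rw [eqn_off hP, ord_one]

theorem gn_unique (hL : Loc M) {x : M.F} {P Q : Place K} {t : K} (h : M.Gn x P t)
    (h' : M.Gn x Q t) : P = Q := by
  by_contra e
  have := hL.other x Q P t h' ⟨t, h⟩ e
  rw [h.ord] at this
  exact one_ne_zero this

/-- two equations of the same divisor have the same order at places with centre through `x` -/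
theorem ord_gn_eq {x : M.F} {P Q : Place K} {t t' : K} (h : M.Gn x P t) (h' : M.Gn x P t')
    (hQ : M.Ct x Q) : Q.ord t = Q.ord t' := by
  have h1 := hQ _ (h.dvd t' h'.mem (by rw [h'.ord]; exact one_pos))
  have h2 := hQ _ (h'.dvd t h.mem (by rw [h.ord]; exact one_pos))
  have h3 := ord_unit Q h2 (by rwa [inv_div])
  rw [ord_div Q (gn_ne h) (gn_ne h')] at h3
  omega

theorem ct_of_on {x : M.F} {Q : Place K} (h : M.On x Q) : M.Ct x Q := h.choose_spec.le

theorem ordAt_single (x : M.F) (Q P : Place K) (c : ℝ) :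
    M.ordAt x Q (Finsupp.single P c) = c * Q.ord (M.eqn x P) :=
  Finsupp.sum_single_index (zero_mul _)

theorem ordAt_add (x : M.F) (Q : Place K) (D E : Div K) :
    M.ordAt x Q (D + E) = M.ordAt x Q D + M.ordAt x Q E :=
  Finsupp.sum_add_index' (fun _ => zero_mul _) fun _ _ _ => add_mul _ _ _

theorem ordAt_smul (x : M.F) (Q : Place K) (c : ℝ) (D : Div K) :
    M.ordAt x Q (c • D) = c * M.ordAt x Q D := by
  rw [Mdl.ordAt, Finsupp.sum_smul_index' (fun _ => zero_mul _), Mdl.ordAt, Finsupp.mul_sum]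
  simp [mul_assoc]

theorem ordAt_on (hL : Loc M) {x : M.F} {Q : Place K} (hQ : M.On x Q) (D : Div K) :
    M.ordAt x Q D = D Q := by
  classical
  rw [Mdl.ordAt, Finsupp.sum, Finset.sum_eq_single Q]
  · simp [ord_eqn hL hQ]
  · intro P _ h; simp [ord_eqn hL hQ, h]
  · intro h; simp [Finsupp.notMem_support_iff.1 h]

theorem ordAt_nonneg {x : M.F} {Q : Place K} (hQ : M.Ct x Q) {D : Div K} (h : 0 ≤ D) :
    0 ≤ M.ordAt x Q D :=
  Finset.sum_nonneg fun P _ => mul_nonneg (h P)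
    (by exact_mod_cast ord_nonneg_of_mem Q (hQ _ (eqn_mem x P)))

theorem ordAt_eq_zero {x : M.F} (Q : Place K) {D : Div K} (h : ∀ P, M.On x P → D P = 0) :
    M.ordAt x Q D = 0 :=
  Finset.sum_eq_zero fun P _ => by
    by_cases hP : M.On x P
    · simp [h P hP]
    · simp [eqn_off hP]

theorem ordAt_div (hL : Loc M) {x : M.F} {Q : Place K} (hQ : M.Ct x Q) {f : K} (hf : f ≠ 0) :
    M.ordAt x Q (M.div f) = Q.ord f := by
  set u : K := ∏ P ∈ (M.div f).support, M.eqn x P ^ P.ord f with hu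
  have hne : ∀ P ∈ (M.div f).support, M.eqn x P ^ P.ord f ≠ 0 :=
    fun P _ => zpow_ne_zero _ (eqn_ne x P)
  have hu0 : u ≠ 0 := Finset.prod_ne_zero_iff.2 hne
  have hord : ∀ R : Place K, (R.ord u : ℝ) = M.ordAt x R (M.div f) := fun R => by
    rw [hu, ord_prod R _ hne, Mdl.ordAt, Finsupp.sum, Int.cast_sum]
    refine Finset.sum_congr rfl fun P hP => ?_
    rw [ord_zpow, div_apply hL f (dv_div f P hP), Int.cast_mul]
  have h0 : ∀ R, M.On x R → R.ord (f / u) = 0 := fun R hR => by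
    have := hord R
    rw [ordAt_on hL hR, div_apply hL f ⟨x, hR⟩] at this
    rw [ord_div R hf hu0, Int.cast_inj.1 this, sub_self]
  have h1 := hQ _ (hL.mem x _ fun R hR => (h0 R hR).ge)
  have h2 := hQ _ (hL.mem x (f / u)⁻¹ fun R hR => by rw [ord_inv, h0 R hR]; rfl)
  have h3 := ord_unit Q h1 h2
  rw [ord_div Q hf hu0] at h3
  rw [← hord, Int.cast_inj]
  omega

/-! ### canonical divisors -/

theorem jac_refl (t : Fin n → K) : M.Jac t t 1 := fun x _ e _ =>
  .of_forall fun y => by rw [M.val_one, one_mul]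

theorem jac_trans {g t t' : Fin n → K} {j j' : K} (h : M.Jac g t j) (h' : M.Jac t t' j') :
    M.Jac g t' (j * j') := fun x hx e he => by
  filter_upwards [h x hx e he, h' x hx e he, M.at_pt (M.val_mul j j') ⟨x, hx⟩] with y h1 h2 h3
  rw [h1, h2, h3, mul_assoc]

theorem can_coord (hL : Loc M) {x : M.F} {t : Fin n → K} (ht : M.Coord x t) :
    ∃ κ, M.Can t κ ∧ ∀ P, M.On x P → κ P = 0 := by
  obtain ⟨κ, h⟩ := hL.can x t t 1 ht (jac_refl t) one_ne_zero
  exact ⟨κ, h, fun P hP => by simpa using (h.2 x t 1 ht (jac_refl t)).2 P hP⟩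

theorem can_int (hL : Loc M) {g : Fin n → K} {κ : Div K} (h : M.Can g κ) : IsInt κ := fun P => by
  by_cases hP : M.Pr P
  · obtain ⟨x, hx⟩ := hP
    obtain ⟨t, ht⟩ := hL.coord x
    obtain ⟨j, hj⟩ := hL.jac x t g ht
    exact ⟨_, (h.2 x t j ht hj).2 P hx⟩
  · exact ⟨0, by simpa using dv_iff.1 h.1 P hP⟩

theorem can_eq (hL : Loc M) {g t : Fin n → K} {j : K} {κ κ' : Div K} (hj : M.Jac g t j)
    (h : M.Can g κ) (h' : M.Can t κ') : j ≠ 0 ∧ κ = κ' + M.div j := by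
  have key : ∀ x, j ≠ 0 ∧ ∀ P, M.On x P → κ P = κ' P + P.ord j := fun x => by
    obtain ⟨t', ht'⟩ := hL.coord x
    obtain ⟨j', hj'⟩ := hL.jac x t' t ht'
    obtain ⟨h1, h2⟩ := h.2 x t' _ ht' (jac_trans hj hj')
    obtain ⟨h3, h4⟩ := h'.2 x t' _ ht' hj'
    refine ⟨left_ne_zero_of_mul h1, fun P hP => ?_⟩
    rw [h2 P hP, h4 P hP, ord_mul P (left_ne_zero_of_mul h1) h3, Int.cast_add, add_comm]
  obtain ⟨x₀, hx₀⟩ := M.conn.nonempty
  refine ⟨(key ⟨x₀, hx₀⟩).1, dv_ext h.1 (dv_add h'.1 (dv_div j)) fun P hP => ?_⟩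
  obtain ⟨x, hx⟩ := id hP
  rw [Finsupp.add_apply, div_apply hL j hP, (key x).2 P hx]

theorem IsCan.dv {κ : Div K} (h : IsCan M κ) : M.Dv κ := by
  obtain ⟨g, κ₀, f, -, h1, rfl⟩ := h
  exact dv_add h1.1 (dv_div f)

theorem IsCan.int (hL : Loc M) {κ : Div K} (h : IsCan M κ) : IsInt κ := by
  obtain ⟨g, κ₀, f, -, h1, rfl⟩ := h
  exact IsInt.add (can_int hL h1) (int_div hL f)

theorem IsCan.add_div (hL : Loc M) {κ : Div K} (h : IsCan M κ) {f : K} (hf : f ≠ 0) :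
    IsCan M (κ + M.div f) := by
  obtain ⟨g, κ₀, f', h0, h1, rfl⟩ := h
  exact ⟨g, κ₀, f' * f, mul_ne_zero h0 hf, h1, by rw [div_mul hL h0 hf, add_assoc]⟩

theorem isCan_of (hL : Loc M) {g : Fin n → K} {κ : Div K} (h : M.Can g κ) : IsCan M κ :=
  ⟨g, κ, 1, one_ne_zero, h, by rw [div_one hL, add_zero]⟩

/-- comparison with the canonical divisor of a system of coordinates -/
theorem IsCan.eq_coord (hL : Loc M) {κ κ' : Div K} (h : IsCan M κ) {x : M.F} {t : Fin n → K}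
    (ht : M.Coord x t) (h' : M.Can t κ') : ∃ f, f ≠ 0 ∧ κ = κ' + M.div f := by
  obtain ⟨g, κ₀, f, h0, h1, rfl⟩ := h
  obtain ⟨j, hj⟩ := hL.jac x t g ht
  obtain ⟨h2, rfl⟩ := can_eq hL hj h1 h'
  exact ⟨j * f, mul_ne_zero h2 h0, by rw [div_mul hL h2 h0, add_assoc]⟩

/-! ### pull back -/

section pull

variable {M' : Mdl n N K} {m : Mod M' M}

theorem dv_pull (D : Div K) : M'.Dv (M.pull M' D) :=
  dv_iff.2 fun P hP => mkDiv_zero (if_neg hP)

theorem img_mem (m : Mod M' M) (y : M'.F) : m.g y ∈ M.F := m.img ▸ ⟨y, y.2, rfl⟩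

/-- the image of a point -/
def pt (m : Mod M' M) (y : M'.F) : M.F := ⟨m.g y, img_mem m y⟩

theorem pull_on (hB : Bir M' M m) {y : M'.F} {Q : Place K} (h : M'.On y Q) (D : Div K) :
    M.pull M' D Q = M.ordAt (pt m y) Q D := hB.pull y (pt m y) Q D rfl h

theorem ct_pt (hB : Bir M' M m) {y : M'.F} {Q : Place K} (h : M'.On y Q) : M.Ct (pt m y) Q :=
  fun f hf => ct_of_on h f ((hB.le y (pt m y) rfl).1 hf)

/-- the pull back as a linear map -/
def pl (hB : Bir M' M m) : Div K →ₗ[ℝ] Div K where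
  toFun := M.pull M'
  map_add' D E := dv_ext (dv_pull _) (dv_add (dv_pull _) (dv_pull _)) fun Q ⟨y, hy⟩ => by
    rw [Finsupp.add_apply, pull_on hB hy, pull_on hB hy, pull_on hB hy, ordAt_add]
  map_smul' c D := dv_ext (dv_pull _) (dv_smul (dv_pull _) _) fun Q ⟨y, hy⟩ => by
    rw [Finsupp.smul_apply, pull_on hB hy, pull_on hB hy, ordAt_smul]; rfl

theorem pl_apply (hB : Bir M' M m) (D : Div K) : pl hB D = M.pull M' D := rfl

theorem pull_pr (hL : Loc M) (hB : Bir M' M m) {P : Place K} (hP : M.Pr P) (D : Div K) :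
    M.pull M' D P = D P := by
  obtain ⟨y, hy⟩ := hB.pr P hP
  rw [pull_on hB hy, ordAt_on hL (hB.on y (pt m y) P rfl hy hP)]

theorem pull_nonneg (hB : Bir M' M m) {D : Div K} (h : 0 ≤ D) : 0 ≤ M.pull M' D := fun Q => by
  by_cases hQ : M'.Pr Q
  · obtain ⟨y, hy⟩ := hQ
    rw [pull_on hB hy]; exact ordAt_nonneg (ct_pt hB hy) h
  · exact (dv_iff.1 (dv_pull D) Q hQ).ge

theorem pull_int (hB : Bir M' M m) {D : Div K} (h : IsInt D) : IsInt (M.pull M' D) := fun Q => by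
  by_cases hQ : M'.Pr Q
  · obtain ⟨y, hy⟩ := hQ
    rw [pull_on hB hy]; exact IsInt.fsum h _
  · exact ⟨0, by simpa using dv_iff.1 (dv_pull D) Q hQ⟩

theorem pull_div (hL : Loc M) (hL' : Loc M') (hB : Bir M' M m) {f : K} (hf : f ≠ 0) :
    M.pull M' (M.div f) = M'.div f :=
  dv_ext (dv_pull _) (dv_div _) fun Q hQ => by
    obtain ⟨y, hy⟩ := id hQ
    rw [pull_on hB hy, ordAt_div hL (ct_pt hB hy) hf, div_apply hL' f hQ]

theorem pull_supp (hL : Loc M) (hB : Bir M' M m) (D : Div K) {Q : Place K}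
    (h : M.pull M' D Q ≠ 0) : D Q ≠ 0 ∨ Q ∈ Exc M' M := by
  by_cases hQ : M.Pr Q
  · exact Or.inl (pull_pr hL hB hQ D ▸ h)
  · exact Or.inr ⟨dv_pull D Q (Finsupp.mem_support_iff.2 h), hQ⟩

theorem exists_can' (hL : Loc M) (hL' : Loc M') (hJ : JMD n) (m : Mod M' M) {g : Fin n → K}
    {κ : Div K} (h : M.Can g κ) : ∃ κ', M'.Can g κ' := by
  obtain ⟨y, hy⟩ := M'.conn.nonempty
  obtain ⟨t', ht'⟩ := hL'.coord ⟨y, hy⟩
  obtain ⟨t, ht⟩ := hL.coord (pt m ⟨y, hy⟩)
  obtain ⟨j, hj⟩ := hL.jac _ t g ht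
  obtain ⟨a, ha⟩ := hL.jac _ t t' ht
  obtain ⟨b, hb⟩ := hL'.jac _ t' t ht'
  obtain ⟨κ₁, h1, -⟩ := can_coord hL' ht'
  have hab := (h1.2 _ t' _ ht' (jac_trans (hJ N K M M' m _ _ _ ha) hb)).1
  exact hL'.can _ t' g _ ht' (jac_trans (hJ N K M M' m _ _ _ hj) hb)
    (mul_ne_zero (h.2 _ t j ht hj).1 (right_ne_zero_of_mul hab))

/-- The relative canonical divisor is well defined. -/
theorem rel_eq (hL : Loc M) (hL' : Loc M') (hJ : JMD n) (hB : Bir M' M m) {g t : Fin n → K}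
    {κ κ' κ₁ κ₁' : Div K} {x : M.F} (ht : M.Coord x t) (h : M.Can g κ) (h' : M'.Can g κ')
    (h₁ : M.Can t κ₁) (h₁' : M'.Can t κ₁') : κ' - M.pull M' κ = κ₁' - M.pull M' κ₁ := by
  obtain ⟨j, hj⟩ := hL.jac x t g ht
  obtain ⟨h0, rfl⟩ := can_eq hL hj h h₁
  obtain ⟨-, rfl⟩ := can_eq hL' (hJ N K M M' m _ _ _ hj) h' h₁'
  rw [← pl_apply hB, map_add, pl_apply, pl_apply, pull_div hL hL' hB h0]
  abel

/-- The relative canonical divisor at a prime through `y`. -/
theorem rel_on (hL : Loc M) (hL' : Loc M') (hJ : JMD n) (hB : Bir M' M m) {g t t' : Fin n → K}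
    {κ κ' : Div K} (h : M.Can g κ) (h' : M'.Can g κ') {y : M'.F} (ht : M.Coord (pt m y) t)
    (ht' : M'.Coord y t') {j : K} (hj : M'.Jac t t' j) :
    j ≠ 0 ∧ ∀ Q, M'.On y Q → (κ' - M.pull M' κ) Q = Q.ord j := by
  obtain ⟨κ₁, h₁, h0⟩ := can_coord hL ht
  obtain ⟨κ₁', h₁'⟩ := exists_can' hL hL' hJ m h₁
  refine ⟨(h₁'.2 y t' j ht' hj).1, fun Q hQ => ?_⟩
  rw [rel_eq hL hL' hJ hB ht h h' h₁ h₁', Finsupp.sub_apply, pull_on hB hQ, ordAt_eq_zero Q h0,
    sub_zero, (h₁'.2 y t' j ht' hj).2 Q hQ]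

end pull

/-! ### restriction -/

section rs

variable {L : Type} [Field L] [Algebra ℂ L] {S : Mdl n N L} {M : Mdl (n + 1) N K} {P : Place K}
  {s : Sub S M P}

theorem dv_rs (s : Sub S M P) (D : Div K) : S.Dv (s.rs D) :=
  dv_iff.2 fun Q hQ => mkDiv_zero (dif_neg hQ)

theorem rs_add (hR : Rst s) {D E : Div K} (hD : D P = 0) (hE : E P = 0) :
    s.rs (D + E) = s.rs D + s.rs E :=
  dv_ext (dv_rs s _) (dv_add (dv_rs s _) (dv_rs s _)) fun Q ⟨y, hy⟩ => by
    rw [Finsupp.add_apply, hR.rs y Q _ (by simp [hD, hE]) hy, hR.rs y Q _ hD hy, hR.rs y Q _ hE hy]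
    exact Finsupp.sum_add_index' (fun _ => zero_mul _) fun _ _ _ => add_mul _ _ _

theorem rs_smul (hR : Rst s) (c : ℝ) {D : Div K} (hD : D P = 0) : s.rs (c • D) = c • s.rs D :=
  dv_ext (dv_rs s _) (dv_smul (dv_rs s _) _) fun Q ⟨y, hy⟩ => by
    rw [Finsupp.smul_apply, hR.rs y Q _ (by simp [hD]) hy, hR.rs y Q _ hD hy,
      Finsupp.sum_smul_index' (fun _ => zero_mul _), smul_eq_mul, Finsupp.mul_sum]
    simp [mul_assoc]

theorem rs_int (hR : Rst s) {D : Div K} (hD : D P = 0) (h : IsInt D) : IsInt (s.rs D) :=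
  fun Q => by
    by_cases hQ : S.Pr Q
    · obtain ⟨y, hy⟩ := hQ
      rw [hR.rs y Q _ hD hy]; exact IsInt.fsum h _
    · exact ⟨0, by simpa using dv_iff.1 (dv_rs s D) Q hQ⟩

/-- moving a divisor away from `P` -/
def nr (M : Mdl (n + 1) N K) (P : Place K) (t : K) : Div K →ₗ[ℝ] Div K :=
  LinearMap.id - (Finsupp.lapply P : Div K →ₗ[ℝ] ℝ).smulRight (M.div t)

theorem nr_apply (t : K) (D : Div K) : nr M P t D = D - D P • M.div t := rfl

theorem nr_self {t : K} (ht : M.div t P = 1) (D : Div K) : nr M P t D P = 0 := by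
  simp [nr_apply, ht]

theorem nr_of_zero (t : K) {D : Div K} (h : D P = 0) : nr M P t D = D := by simp [nr_apply, h]

/-- the restriction as a linear map -/
def rsn (hR : Rst s) {t : K} (ht : M.div t P = 1) : Div K →ₗ[ℝ] Div L where
  toFun D := s.rs (nr M P t D)
  map_add' D E := by rw [map_add, rs_add hR (nr_self ht D) (nr_self ht E)]
  map_smul' c D := by rw [map_smul, rs_smul hR c (nr_self ht D)]; rfl

theorem rsn_apply (hR : Rst s) {t : K} (ht : M.div t P = 1) (D : Div K) :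
    rsn hR ht D = s.rs (nr M P t D) := rfl

theorem rsn_of_zero (hR : Rst s) {t : K} (ht : M.div t P = 1) {D : Div K} (h : D P = 0) :
    rsn hR ht D = s.rs D := by rw [rsn_apply, nr_of_zero t h]

theorem res_one (s : Sub S M P) : s.res 1 = 1 := by simpa using s.res_const 1

theorem res_zero' (s : Sub S M P) : s.res 0 = 0 := by simpa using s.res_const 0

end rs

end Vale.Agent.P277Z.FI
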