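import Vale.Agent.P277Z.FI.Sk

/-!
# P277Z: coordinates are local equations; the order of a Jacobian determinant
-/

open scoped Manifold ContDiff Topology
open Set Filter
open Vale.Agent.P272.K (Cm Chart At)
open Vale.Agent.P297 (Place)
open Vale.Agent.P297Z

noncomputable section

namespace Vale.Agent.P277Z.FI

namespace JacA

variable {n : ℕ}

/-- the Jacobian matrix -/
def jm (G : Fin n → Cm n → ℂ) (z : Cm n) : Matrix (Fin n) (Fin n) ℂ :=
  Matrix.of fun i j => fderiv ℂ (G i) z (Pi.single j 1)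

theorem det_fderiv {G : Fin n → Cm n → ℂ} {z : Cm n} (h : ∀ i, DifferentiableAt ℂ (G i) z) :
    LinearMap.det (fderiv ℂ (fun z i => G i z) z : Cm n →ₗ[ℂ] Cm n) = (jm G z).det := by
  rw [← LinearMap.det_toMatrix', fderiv_pi h]
  rfl

theorem an_det {m : Type} [Fintype m] [DecidableEq m] {A : Cm n → Matrix m m ℂ} {z : Cm n}
    (h : ∀ i j, AnalyticAt ℂ (fun z => A z i j) z) : AnalyticAt ℂ (fun z => (A z).det) z := by
  simp only [Matrix.det_apply']
  exact Finset.analyticAt_fun_sum _ fun σ _ =>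
    analyticAt_const.mul (Finset.analyticAt_fun_prod _ fun i _ => h _ _)

theorem an_pd {f : Cm n → ℂ} {z : Cm n} (hf : AnalyticAt ℂ f z) (v : Cm n) :
    AnalyticAt ℂ (fun z => fderiv ℂ f z v) z :=
  ((ContinuousLinearMap.apply ℂ ℂ v).analyticAt _).comp hf.fderiv

/-- the bordered matrix -/
def bm (q : Cm n → ℂ) (u : Fin n → Cm n → ℂ) (k : Fin n → ℕ) (z : Cm n) :
    Matrix (Fin n ⊕ Unit) (Fin n ⊕ Unit) ℂ :=
  Matrix.fromBlocks (jm u z) (Matrix.of fun i _ => -(k i * u i z))
    (Matrix.of fun _ j => fderiv ℂ q z (Pi.single j 1)) (Matrix.of fun _ _ => q z)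

theorem an_bm {q : Cm n → ℂ} {u : Fin n → Cm n → ℂ} (k : Fin n → ℕ) {z : Cm n}
    (hq : AnalyticAt ℂ q z) (hu : ∀ i, AnalyticAt ℂ (u i) z) :
    AnalyticAt ℂ (fun z => (bm q u k z).det) z := by
  refine an_det fun i j => ?_
  rcases i with i | i <;> rcases j with j | j
  · exact an_pd (hu i) _
  · exact (analyticAt_const.mul (hu i)).neg
  · exact an_pd hq _
  · exact hq

theorem det_pow {q : Cm n → ℂ} {u G : Fin n → Cm n → ℂ} {k : Fin n → ℕ} {z : Cm n}
    (hq : DifferentiableAt ℂ q z) (hu : ∀ i, DifferentiableAt ℂ (u i) z) (h0 : q z ≠ 0)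
    (hG : ∀ i, G i =ᶠ[𝓝 z] fun y => q y ^ k i * u i y) :
    q z * (jm G z).det = q z ^ (∑ i, k i) * (bm q u k z).det := by
  let D : Matrix Unit Unit ℂ := Matrix.of fun _ _ => q z
  let D' : Matrix Unit Unit ℂ := Matrix.of fun _ _ => (q z)⁻¹
  have h1 : D' * D = 1 := by
    ext i j
    simp [D, D', Matrix.mul_apply, h0]
  let _ : Invertible D := invertibleOfLeftInverse D D' h1
  have h2 : ⅟D = D' := invOf_eq_left_inv h1
  have h3 : (bm q u k z).det = D.det * (jm u z - (Matrix.of fun i (_ : Unit) => -(k i * u i z)) *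
      ⅟D * Matrix.of fun (_ : Unit) j => fderiv ℂ q z (Pi.single j 1)).det :=
    Matrix.det_fromBlocks₂₂ _ _ _ D
  have h4 : jm G z = Matrix.diagonal (fun i => q z ^ k i) * (jm u z -
      (Matrix.of fun i (_ : Unit) => -(k i * u i z)) * D' *
        Matrix.of fun (_ : Unit) j => fderiv ℂ q z (Pi.single j 1)) := by
    ext i j
    have h5 := ((hq.hasFDerivAt.pow (k i)).fun_mul (hu i).hasFDerivAt).fderiv
    rw [Matrix.diagonal_mul, jm, Matrix.of_apply, (hG i).fderiv_eq, h5]
    simp only [jm, D', Matrix.sub_apply, Matrix.mul_apply, Matrix.of_apply,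
      Finset.univ_unique, Finset.sum_singleton, add_apply,
      smul_apply, smul_eq_mul, nsmul_eq_mul]
    rcases k i with _ | m
    · simp
    · rw [Nat.add_sub_cancel]
      field_simp
      ring
  rw [h3, h2, h4, Matrix.det_mul, Matrix.det_diagonal, Finset.prod_pow_eq_pow_sum,
    Matrix.det_unique D]
  simp only [D, Matrix.of_apply]
  ring

variable {N : ℕ} {K : Type} [Field K] [Algebra ℂ K] {M : Mdl n N K} {x : M.F}

theorem val_one (y : M.W) : M.val 1 y = 1 := by simpa using M.val_const 1 y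

theorem val_zero (y : M.W) : M.val 0 y = 0 := by simpa using M.val_const 0 y

theorem mul_gen (x : M.F) (f g : K) :
    ∀ᶠ y in gen {(x : M.W)}, M.val (f * g) y = M.val f y * M.val g y :=
  (M.val_mul f g).filter_mono (gen_le_of (by simp))

theorem mul_near {f g : K} (hf : f ∈ M.O x) (hg : g ∈ M.O x) :
    ∀ᶠ y in 𝓝 (x : M.W), M.val (f * g) y = M.val f y * M.val g y :=
  M.val_eq x.2 (fun e he => (hf e he).mul (hg e he)) (mul_gen x f g)

theorem pow_near {f : K} (hf : f ∈ M.O x) (k : ℕ) :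
    ∀ᶠ y in 𝓝 (x : M.W), M.val (f ^ k) y = M.val f y ^ k := by
  induction k with
  | zero => exact .of_forall fun y => by rw [pow_zero, pow_zero, val_one]
  | succ k ih =>
    filter_upwards [ih, mul_near (pow_mem hf k) hf] with y h1 h2
    rw [pow_succ, h2, h1, pow_succ]

theorem ne_gen (x : M.F) {f : K} (hf : f ≠ 0) : ∀ᶠ y in gen {(x : M.W)}, M.val f y ≠ 0 := by
  filter_upwards [mul_gen x f f⁻¹] with y hy h0
  rw [mul_inv_cancel₀ hf, val_one, h0, zero_mul] at hy
  exact one_ne_zero hy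

theorem tsymm {e : Chart n M.W} {y : M.W} (he : At e y) : Tendsto e.symm (𝓝 (e y)) (𝓝 y) := by
  have c := e.continuousAt_symm (e.map_source he.2)
  rwa [ContinuousAt, e.left_inv he.2] at c

theorem jd_near {e : Chart n M.W} (he : At e (x : M.W)) {g : Fin n → K} (hg : ∀ i, g i ∈ M.O x) :
    ∀ᶠ y in 𝓝 (x : M.W), jd (fun i => M.val (g i)) e y =
      (jm (fun i z => M.val (g i) (e.symm z)) (e y)).det := by
  filter_upwards [(e.continuousAt he.2).eventually
    (eventually_all.2 fun i => (hg i e he).eventually_analyticAt)] with y hy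
  exact det_fderiv fun i => (hy i).differentiableAt

theorem div_pow_mem {Q : Place K} {q f : K} (hq : M.Gn x Q q) (hf : f ∈ M.O x) (k : ℕ)
    (hk : (k : ℤ) ≤ Q.ord f) : f / q ^ k ∈ M.O x := by
  have q0 : q ≠ 0 := fun h => by simpa [h] using hq.ord
  induction k with
  | zero => simpa using hf
  | succ k ih =>
    have f0 : f ≠ 0 := fun h => by
      rw [h, Pl.ord_zero] at hk
      omega
    rw [pow_succ, ← div_div]
    refine hq.dvd _ (ih (by omega)) ?_
    rw [Pl.ord_div Q f0 (pow_ne_zero _ q0), Pl.ord_pow, hq.ord]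
    omega

end JacA

open JacA

theorem co1 (n : ℕ) : CO1 n := by
  intro N K _ _ M hL x t i ht
  have he : At (chartAt (Cm n) (x : M.W)) (x : M.W) := ⟨chart_mem_atlas _ _, mem_chart_source _ _⟩
  set e := chartAt (Cm n) (x : M.W)
  have h1 : fderiv ℂ (fun z => M.val (t i) (e.symm z)) (e x) ≠ 0 := fun h => by
    refine ht.2 e he ?_
    rw [(jd_near he fun i => (ht.1 i).1).self_of_nhds]
    exact Matrix.det_eq_zero_of_row_eq_zero i fun j => by simp [jm, h]
  have t0 : t i ≠ 0 := fun h => h1 (by simp [h, val_zero])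
  refine ⟨t0, fun Q ⟨q, hq⟩ hpos => ?_⟩
  have q0 : q ≠ 0 := fun h => by simpa [h] using hq.ord
  have ha := hq.dvd _ (ht.1 i).1 hpos
  have h2 : M.val (t i / q) x ≠ 0 := fun h => by
    have h3 := (tsymm he).eventually (mul_near hq.mem ha)
    rw [mul_div_cancel₀ _ q0] at h3
    refine h1 ?_
    rw [Filter.EventuallyEq.fderiv_eq h3, ((hq.mem e he).differentiableAt.hasFDerivAt.fun_mul
      (ha e he).differentiableAt.hasFDerivAt).fderiv, e.left_inv he.2, h, hq.van]
    ext v
    simp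
  have hi := hL.inv x _ ha h2
  have h3 := Pl.ord_unit Q (hq.le _ ha) (hq.le _ hi)
  rw [Pl.ord_div Q t0 q0, hq.ord] at h3
  refine ⟨(ht.1 i).1, (ht.1 i).2, by omega, hq.le, fun f hf h => ?_, hq.loc⟩
  have h4 : f / t i = f / q * (t i / q)⁻¹ := by field_simp
  exact h4 ▸ mul_mem (hq.dvd f hf h) hi

theorem jac (n : ℕ) : JAC n := by
  intro N K _ _ M _ x t g j Q ht ⟨q, hq⟩ hg hj j0
  have he : At (chartAt (Cm n) (x : M.W)) (x : M.W) := ⟨chart_mem_atlas _ _, mem_chart_source _ _⟩
  set e := chartAt (Cm n) (x : M.W)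
  have q0 : q ≠ 0 := fun h => by simpa [h] using hq.ord
  obtain ⟨k, hk⟩ : ∃ k : Fin n → ℕ, ∀ i, (k i : ℤ) = Q.ord (g i) :=
    ⟨_, fun i => Int.toNat_of_nonneg (Pl.ord_nonneg_of_mem Q (hq.le _ (hg i)))⟩
  have hu : ∀ i, g i / q ^ k i ∈ M.O x := fun i => div_pow_mem hq (hg i) _ (hk i).le
  set q' : Cm n → ℂ := fun z => M.val q (e.symm z)
  set u : Fin n → Cm n → ℂ := fun i z => M.val (g i / q ^ k i) (e.symm z)
  set T : Fin n → Cm n → ℂ := fun i z => M.val (t i) (e.symm z)
  have hT : AnalyticAt ℂ (fun z => (jm T z).det) (e x) :=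
    an_det fun i _ => an_pd ((ht.1 i).1 e he) _
  have hT1 := jd_near he fun i => (ht.1 i).1
  have hT0 : (jm T (e x)).det ≠ 0 := hT1.self_of_nhds ▸ ht.2 e he
  have hG : ∀ᶠ z in 𝓝 (e x), ∀ i, M.val (g i) (e.symm z) = q' z ^ k i * u i z := by
    refine (tsymm he).eventually (p := fun y => ∀ i, M.val (g i) y =
      M.val q y ^ k i * M.val (g i / q ^ k i) y) (eventually_all.2 fun i => ?_)
    filter_upwards [mul_near (pow_mem hq.mem (k i)) (hu i), pow_near hq.mem (k i)] with y h1 h2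
    rwa [mul_div_cancel₀ _ (pow_ne_zero _ q0), h2] at h1
  have ha : Hol n (fun y => (bm q' u k (e y)).det / (jm T (e y)).det) x := by
    refine Hol.of_chart he (((an_bm k (hq.mem e he) fun i => hu i e he).fun_div hT hT0).congr ?_)
    filter_upwards [e.open_target.mem_nhds (e.map_source he.2)] with z hz
    rw [e.right_inv hz]
  have hc := e.continuousAt he.2
  have key : ∀ᶠ y in gen {(x : M.W)}, M.val (j * q / q ^ ∑ i, k i) y =
      (bm q' u k (e y)).det / (jm T (e y)).det := by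
    filter_upwards [hj x x.2 e he, ne_gen x q0, mul_gen x j q,
      mul_gen x (q ^ ∑ i, k i) (j * q / q ^ ∑ i, k i), gen_of_nhds (pow_near hq.mem (∑ i, k i)),
      gen_of_nhds hT1, gen_of_nhds (jd_near he hg), gen_of_nhds (e.open_source.mem_nhds he.2),
      gen_of_nhds (hc.eventually (hT.continuousAt.eventually_ne hT0)),
      gen_of_nhds (hc.eventually hG.eventually_nhds),
      gen_of_nhds (hc.eventually (hq.mem e he).eventually_analyticAt),
      gen_of_nhds (hc.eventually (eventually_all.2 fun i => (hu i e he).eventually_analyticAt))]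
      with y h1 h2 h3 h4 h5 h6 h7 h8 h9 h10 h11 h12
    have hy : q' (e y) = M.val q y := congrArg (M.val q) (e.left_inv h8)
    have h13 := det_pow (G := fun i z => M.val (g i) (e.symm z)) (k := k) h11.differentiableAt
      (fun i => (h12 i).differentiableAt) (hy.trans_ne h2) fun i => h10.mono fun z hz => hz i
    rw [mul_div_cancel₀ _ (pow_ne_zero _ q0), h3, h5] at h4
    rw [← h7, h1, h6] at h13
    change q' (e y) * _ = q' (e y) ^ _ * _ at h13
    rw [hy] at h13
    rw [eq_div_iff h9]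
    refine mul_left_cancel₀ (pow_ne_zero (∑ i, k i) h2) ?_
    rw [← mul_assoc, ← h4, ← h13]
    ring
  have hmem : j * q / q ^ ∑ i, k i ∈ M.O x :=
    ha.congr ((M.val_eq x.2 ha key).mono fun _ => Eq.symm)
  have h1 := Pl.ord_nonneg_of_mem Q (hq.le _ hmem)
  rw [Pl.ord_div Q (mul_ne_zero j0 q0) (pow_ne_zero _ q0), Pl.ord_mul Q j0 q0, Pl.ord_pow,
    hq.ord] at h1
  simp only [← hk]
  push_cast at h1
  omega

end Vale.Agent.P277Z.FI
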