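import Vale.Agent.P277Z.FI.Sk2

/-!
# P277Z: the blow up of a stratum of codimension two, in terms of divisors
-/

set_option linter.all false

open Set
open Vale.Agent.P297 (Place)
open Vale.Agent.P297Z.Pl

noncomputable section

namespace Vale.Agent.P277Z.FI

namespace Bll

variable {n N : ℕ} {K : Type} [Field K] [Algebra ℂ K] {M M' : Mdl n N K} {m : Mod M' M}

/-- the conclusion at a point of the blow up -/
structure Ok (M M' : Mdl n N K) (T : Set (Place K)) (R R' : Place K) (y : M'.F) : Prop where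
  snc : ∃ t, M'.Coord y t ∧ ∀ P ∈ T ∪ Exc M' M, M'.On y P → ∃ i, M'.Gn y P (t i)
  sep : ¬ (M'.On y R ∧ M'.On y R')
  uniq : ∀ Q ∈ Exc M' M, ∀ Q' ∈ Exc M' M, M'.On y Q → M'.On y Q' → Q = Q'
  one : ∀ Q ∈ Exc M' M, M'.On y Q → ∀ P, P = R ∨ P = R' → M.pull M' (Finsupp.single P 1) Q = 1
  zero : ∀ Q ∈ Exc M' M, M'.On y Q → ∀ P ∈ T, ¬ (P = R ∨ P = R') →
    M.pull M' (Finsupp.single P 1) Q = 0
  rel : ∀ Q ∈ Exc M' M, M'.On y Q → ∀ g κ κ', M.Can g κ → M'.Can g κ' →
    (κ' - M.pull M' κ) Q = 1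

theorem Ok.symm {T : Set (Place K)} {R R' : Place K} {y : M'.F} (h : Ok M M' T R R' y) :
    Ok M M' T R' R y :=
  ⟨h.snc, fun k => h.sep k.symm, h.uniq, fun Q hQ hy P hP => h.one Q hQ hy P hP.symm,
    fun Q hQ hy P hP k => h.zero Q hQ hy P hP fun k' => k k'.symm, h.rel⟩

/-- the exceptional primes through `y` are the zeros of the Jacobian -/
theorem exc_iff (B : Box) (hL : Loc M) (hL' : Loc M') (hB : Bir M' M m) {t t' : Fin n → K}
    {y : M'.F} (ht : M.Coord (pt m y) t) (ht' : M'.Coord y t') {j : K} (hj : M'.Jac t t' j)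
    {Q : Place K} (hQ : M'.On y Q) : Q ∈ Exc M' M ↔ Q.ord j ≠ 0 := by
  obtain ⟨κ, h, -⟩ := can_coord hL ht
  obtain ⟨κ', h'⟩ := exists_can' hL hL' (B.jmd n) m h
  rw [← (hB.can t κ κ' h h').2, Finset.mem_coe, Finsupp.mem_support_iff,
    (rel_on hL hL' (B.jmd n) hB h h' ht ht' hj).2 Q hQ]
  exact Int.cast_ne_zero

theorem caseA (B : Box) (hL : Loc M) (hL' : Loc M') (hB : Bir M' M m) {T : Set (Place K)}
    {R R' : Place K} (hT : ∀ P ∈ T, M.Pr P) (hR : R ∈ T) (hR' : R' ∈ T) {t : Fin n → K}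
    {y : M'.F} (ht : M.Coord (pt m y) t)
    (htT : ∀ P ∈ T, M.On (pt m y) P → ∃ i, M.Gn (pt m y) P (t i))
    (hx : ¬ (M.On (pt m y) R ∧ M.On (pt m y) R')) (ht' : M'.Coord y t) : Ok M M' T R R' y := by
  have hE : ∀ Q ∈ Exc M' M, ¬ M'.On y Q := fun Q hQ hy =>
    (exc_iff B hL hL' hB ht ht' (jac_refl t) hy).1 hQ (ord_one Q)
  have hon : ∀ P ∈ T, M'.On y P → M.On (pt m y) P := fun P hP hy =>
    hB.on y (pt m y) P rfl hy (hT P hP)
  refine ⟨⟨t, ht', ?_⟩, fun h => hx ⟨hon R hR h.1, hon R' hR' h.2⟩,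
    fun Q hQ _ _ hy => (hE Q hQ hy).elim, fun Q hQ hy => (hE Q hQ hy).elim,
    fun Q hQ hy => (hE Q hQ hy).elim, fun Q hQ hy => (hE Q hQ hy).elim⟩
  rintro P (hP | hP) hy
  · obtain ⟨i, hi⟩ := htT P hP (hon P hP hy)
    exact ⟨i, (B.co1 n N K M' hL' y t i ht').2 P hy (by rw [hi.ord]; exact one_pos)⟩
  · exact (hE P hP hy).elim

theorem caseB (B : Box) (hL : Loc M) (hL' : Loc M') (hB : Bir M' M m) {T : Set (Place K)}
    {R R' : Place K} (hT : ∀ P ∈ T, M.Pr P) (hR : R ∈ T) (hne : R ≠ R') {t : Fin n → K}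
    {y : M'.F} (ht : M.Coord (pt m y) t)
    (htT : ∀ P ∈ T, M.On (pt m y) P → ∃ i, M.Gn (pt m y) P (t i)) {i j : Fin n}
    (hi : M.Gn (pt m y) R (t i)) (hj : M.Gn (pt m y) R' (t j)) {c : ℂ}
    (ht' : M'.Coord y (Function.update t j (t j / t i - algebraMap ℂ K c))) :
    Ok M M' T R R' y := by
  have hij : i ≠ j := by
    rintro rfl
    exact hne (gn_unique hL hi hj)
  set t' : Fin n → K := Function.update t j (t j / t i - algebraMap ℂ K c) with ht'd
  have hl : ∀ l, l ≠ j → t' l = t l := fun l h => Function.update_of_ne h _ _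
  have hjj : t' j = t j / t i - algebraMap ℂ K c := Function.update_self _ _ _
  have hi0 : t i ≠ 0 := gn_ne hi
  have hj0 : t j ≠ 0 := gn_ne hj
  have co := fun l => (B.co1 n N K M' hL' y t' l ht').2
  have hJ : M'.Jac t t' (t i) := B.jbl n N K M' t i j c hij hi0
  obtain ⟨E, hE, hE0⟩ := hL'.van y (t i) (hl i hij ▸ (ht'.1 i).1) hi0 (hl i hij ▸ (ht'.1 i).2)
  have hEg' : M'.Gn y E (t' i) := co i E hE (by rw [hl i hij]; exact hE0)
  have hEg : M'.Gn y E (t i) := hl i hij ▸ hEg'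
  have hexc : ∀ Q ∈ Exc M' M, M'.On y Q → Q = E := fun Q hQ hy => by
    by_contra h
    exact (exc_iff B hL hL' hB ht ht' hJ hy).1 hQ (hL'.other y E Q _ hEg hy h)
  have hEx : E ∈ Exc M' M := (exc_iff B hL hL' hB ht ht' hJ hE).2 (by
    rw [hEg.ord]; exact one_ne_zero)
  have hRy : ¬ M'.On y R := fun h => by
    have h1 := hL'.other y E R _ hEg h (by
      rintro rfl
      exact hEx.2 (hT _ hR))
    rw [hi.ord] at h1
    exact one_ne_zero h1
  have hEl : ∀ l, l ≠ i → E.ord (t' l) = 0 := fun l h => by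
    have h1 := B.jac n N K M' hL' y t' t' 1 E ht' hE (fun l => (ht'.1 l).1) (jac_refl t')
      one_ne_zero
    have h2 : ∀ l, 0 ≤ E.ord (t' l) := fun l => ord_nonneg_of_mem E (ct_of_on hE _ (ht'.1 l).1)
    have h3 : ∑ a ∈ ({l, i} : Finset (Fin n)), E.ord (t' a) ≤ ∑ a, E.ord (t' a) :=
      Finset.sum_le_sum_of_subset_of_nonneg (Finset.subset_univ _) fun a _ _ => h2 a
    rw [Finset.sum_pair h, hEg'.ord] at h3
    rw [ord_one] at h1
    have h4 := h2 l
    omega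
  have hu : t j / t i = t' j + algebraMap ℂ K c := by rw [hjj, sub_add_cancel]
  have hunit : c ≠ 0 → ∀ Q, M'.On y Q → Q.ord (t j / t i) = 0 := fun hc Q hQ => by
    have h1 : t j / t i ∈ M'.O y := by
      rw [hu]; exact add_mem (ht'.1 j).1 (algebraMap_mem _ c)
    have h2 : M'.val (t j / t i) y ≠ 0 := by
      rw [hu, M'.val_add_at (ht'.1 j).1 (algebraMap_mem _ c), (ht'.1 j).2, M'.val_const, zero_add]
      exact hc
    exact ord_unit Q (ct_of_on hQ _ h1) (ct_of_on hQ _ (hL'.inv y _ h1 h2))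
  have hEj : E.ord (t j) = 1 := by
    have h1 : E.ord (t j / t i) = 0 := by
      by_cases hc : c = 0
      · rw [hu, hc, map_zero, add_zero]
        exact hEl j hij.symm
      · exact hunit hc E hE
    rw [ord_div E hj0 hi0, hEg.ord] at h1
    omega
  have hpull : ∀ P l, M.Gn (pt m y) P (t l) →
      M.pull M' (Finsupp.single P 1) E = E.ord (t l) := fun P l h => by
    rw [pull_on hB hE, ordAt_single, one_mul, ord_gn_eq (eqn_gn ⟨_, h⟩) h (ct_pt hB hE)]
  refine ⟨⟨t', ht', ?_⟩, fun h => hRy h.1, fun Q hQ Q' hQ' h h' => ?_, fun Q hQ h P hP => ?_,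
    fun Q hQ h P hP hP' => ?_, fun Q hQ h g κ κ' hκ hκ' => ?_⟩
  · rintro P (hP | hP) hy
    · obtain ⟨l, hl'⟩ := htT P hP (hB.on y (pt m y) P rfl hy (hT P hP))
      refine ⟨l, co l P hy ?_⟩
      by_cases h : l = j
      · subst h
        obtain rfl := gn_unique hL hl' hj
        have h1 : P.ord (t l / t i) = 1 := by
          rw [ord_div P hj0 hi0, hj.ord, hL.other _ R P _ hi ⟨_, hj⟩ hne.symm, sub_zero]
        by_cases hc : c = 0
        · rw [hu, hc, map_zero, add_zero] at h1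
          rw [h1]; exact one_pos
        · rw [hunit hc P hy] at h1
          exact (zero_ne_one h1).elim
      · rw [hl l h, hl'.ord]; exact one_pos
    · rw [hexc P hP hy]
      exact ⟨i, hEg'⟩
  · rw [hexc Q hQ h, hexc Q' hQ' h']
  · rw [hexc Q hQ h]
    rcases hP with rfl | rfl
    · rw [hpull _ i hi, hEg.ord, Int.cast_one]
    · rw [hpull _ j hj, hEj, Int.cast_one]
  · rw [hexc Q hQ h]
    by_cases hx : M.On (pt m y) P
    · obtain ⟨l, hl'⟩ := htT P hP hx
      have h1 : l ≠ i := by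
        rintro rfl
        exact hP' (Or.inl (gn_unique hL hl' hi))
      have h2 : l ≠ j := by
        rintro rfl
        exact hP' (Or.inr (gn_unique hL hl' hj))
      rw [hpull P l hl', ← hl l h2, hEl l h1, Int.cast_zero]
    · rw [pull_on hB hE, ordAt_single, eqn_off hx, ord_one, Int.cast_zero, mul_zero]
  · rw [hexc Q hQ h, (rel_on hL hL' (B.jmd n) hB hκ hκ' ht ht' hJ).2 E hE, hEg.ord, Int.cast_one]

end Bll

theorem bll (B : Box) (n : ℕ) : BLL n := by
  intro N K _ _ M hM T R R' hT hR hR' hne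
  obtain ⟨M', m, hM', h⟩ := B.bl2 n N K M hM R R' hne (snc_mono hT (by
    rintro P (rfl | rfl)
    exacts [hR, hR']))
  have hL := B.loc n N K M hM
  have hL' := B.loc n N K M' hM'
  have hB := B.bir n N K M hM M' m hM'
  have key : ∀ y, Bll.Ok M M' T R R' y := fun y => by
    obtain ⟨t, ht, htT⟩ := hT.2 (pt m y)
    obtain ⟨h1, h2⟩ := h y (pt m y) t rfl ht
    by_cases hx : M.On (pt m y) R ∧ M.On (pt m y) R'
    · obtain ⟨i, hi⟩ := htT R hR hx.1
      obtain ⟨j, hj⟩ := htT R' hR' hx.2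
      obtain ⟨c, hc | hc⟩ := h2 i j hi hj
      · exact Bll.caseB B hL hL' hB hT.1 hR hne ht htT hi hj hc
      · exact (Bll.caseB B hL hL' hB hT.1 hR' hne.symm ht htT hj hi hc).symm
    · exact Bll.caseA B hL hL' hB hT.1 hR hR' ht htT hx (h1 hx)
  refine ⟨M', m, hM', ⟨?_, fun y => (key y).snc⟩, fun y => (key y).sep, fun y => (key y).uniq,
    fun Q hQ P hP => ?_, fun g κ κ' hκ hκ' Q hQ => ?_⟩
  · rintro P (hP | hP)
    · exact hB.pr P (hT.1 P hP)
    · exact hP.1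
  · obtain ⟨y, hy⟩ := hQ.1
    split_ifs with h'
    · exact (key y).one Q hQ hy P h'
    · exact (key y).zero Q hQ hy P hP h'
  · obtain ⟨y, hy⟩ := hQ.1
    exact (key y).rel Q hQ hy g κ κ' hκ hκ'

end Vale.Agent.P277Z.FI
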