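import Vale.Agent.P277Z.FI.Lm
import Vale.Agent.P277Z.FI.Bll

/-!
# P277Z: modifications of the algebraic shadow
-/

set_option linter.all false

open Set Filter Topology
open Vale.Agent.P297 (Place)
open Vale.Agent.P297Z.Pl
open P277Z.Gr P277Z.Gr.Rg P277Z.FG

noncomputable section

namespace Vale.Agent.P277Z.FI

variable {n N : ℕ} {K : Type} [Field K] [Algebra ℂ K] {O : Type} [CommRing O] [Algebra O K]
  {M M' : Mdl n N K}

theorem gd_mod (B : Box) (h : Gd O M) (m : Mod M' M) (hM' : M'.Proj) : Gd O M' where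
  proj := hM'
  loc := B.loc n N K M' hM'
  pos := B.pos n N K M' hM'
  coh := B.coh n N K M' hM'
  mem c := (B.bir n N K M h.proj M' m hM').O₀ ▸ h.mem c
  base c hc := by
    obtain ⟨o, ho⟩ := h.base c hc
    have h1 : ∀ᶠ y in gen M'.F, M.val (algebraMap O K o) (m.g y) = c (M.π (m.g y)) :=
      Lo.gen_iff.2 fun y hy => (m.dom y hy).eventually (M.at_pt ho (pt m ⟨y, hy⟩))
    refine ⟨o, ?_⟩
    filter_upwards [m.val (algebraMap O K o), Lo.gen_of_nhdsSet m.base, h1] with y k1 k2 k3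
    rw [k1, k2, k3]

theorem floor_eq {E : Div K} (h0 : 0 ≤ E) (hi : IsInt E) (Q : Place K) :
    ((⌊E Q⌋₊ : ℕ) : ℝ) = E Q := by
  obtain ⟨k, hk⟩ := hi Q
  have h1 : 0 ≤ k := by exact_mod_cast (hk ▸ h0 Q : (0 : ℝ) ≤ k)
  obtain ⟨l, rfl⟩ := Int.eq_ofNat_of_zero_le h1
  rw [hk, Int.cast_natCast, Nat.floor_natCast]

theorem sum_floor {T : Set (Place K)} [Fintype T] {E : Div K} (h : ∀ Q, E Q ≠ 0 → Q ∈ T)
    (h0 : 0 ≤ E) (hi : IsInt E) :
    ∑ Q : T, ((⌊E Q⌋₊ : ℕ) : ℝ) • Finsupp.single Q.1 (1 : ℝ) = E :=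
  Finsupp.ext fun Q => by
    rw [Finsupp.finset_sum_apply]
    by_cases hQ : Q ∈ T
    · rw [Finset.sum_eq_single ⟨Q, hQ⟩]
      · simp [floor_eq h0 hi]
      · intro R _ e
        rw [Finsupp.smul_apply, Finsupp.single_eq_of_ne fun k => e (Subtype.ext k.symm), smul_zero]
      · simp
    · rw [Finset.sum_eq_zero, eq_comm]
      · exact by_contra fun e => hQ (h Q e)
      · intro R _
        have h1 : Q ≠ R.1 := fun k => hQ (by rw [k]; exact R.2)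
        rw [Finsupp.smul_apply, Finsupp.single_eq_of_ne h1, smul_zero]

/-- The situation. -/
structure BC (O : Type) [CommRing O] [Algebra O K] (d : Dat M) (m : Mod M' M)
    (T : Set (Place K)) (E : Div K) : Prop where
  B : Box
  h : Gd O M
  h' : Gd O M'
  hB : Bir M' M m
  sub : ∀ i, d.P i ∈ T
  exc : ∀ Q ∈ Exc M' M, Q ∈ T
  snc : M'.Snc T
  can : IsCan M' (M.pull M' (d.dZ d.kK) + E)
  int : IsInt E
  rel : ∀ g κ κ', M.Can g κ → M'.Can g κ' → κ' - M.pull M' κ = E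

theorem exists_bc (B : Box) (h : Gd O M) (d : Dat M) (m : Mod M' M) (hM' : M'.Proj)
    {T : Set (Place K)} (h1 : ∀ i, d.P i ∈ T) (h2 : ∀ Q ∈ Exc M' M, Q ∈ T) (h3 : M'.Snc T) :
    ∃ E, BC O d m T E := by
  have h' := gd_mod B h m hM'
  have hB := B.bir n N K M h.proj M' m hM'
  obtain ⟨g, κ₀, f, hf, k1, k2⟩ := d.can'
  obtain ⟨κ₀', k3⟩ := exists_can' h.loc h'.loc (B.jmd n) m k1
  refine ⟨κ₀' - M.pull M' κ₀, B, h, h', hB, h1, h2, h3, ⟨g, κ₀', f, hf, k3, ?_⟩,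
    IsInt.sub (can_int h'.loc k3) (pull_int hB (can_int h.loc k1)), fun g' κ κ' a b => ?_⟩
  · rw [k2, ← pl_apply hB, map_add, pl_apply, pl_apply, pull_div h.loc h'.loc hB hf]
    abel
  · obtain ⟨x, hx⟩ := M.conn.nonempty
    obtain ⟨t, ht⟩ := h.loc.coord ⟨x, hx⟩
    obtain ⟨κ₁, k4, -⟩ := can_coord h.loc ht
    obtain ⟨κ₁', k5⟩ := exists_can' h.loc h'.loc (B.jmd n) m k4
    rw [rel_eq h.loc h'.loc (B.jmd n) hB ht a b k4 k5,
      rel_eq h.loc h'.loc (B.jmd n) hB ht k1 k3 k4 k5]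

namespace BC

variable {d : Dat M} {m : Mod M' M} {T : Set (Place K)} {E : Div K} (c : BC O d m T E)

include c in
theorem pair : ∃ g κ κ', M.Can g κ ∧ M'.Can g κ' := by
  obtain ⟨g, κ₀, f, -, k1, -⟩ := d.can'
  obtain ⟨κ₀', k3⟩ := exists_can' c.h.loc c.h'.loc (c.B.jmd n) m k1
  exact ⟨g, κ₀, κ₀', k1, k3⟩

include c in
theorem nonneg : 0 ≤ E := by
  obtain ⟨g, κ, κ', k1, k2⟩ := c.pair
  exact c.rel g κ κ' k1 k2 ▸ (c.hB.can g κ κ' k1 k2).1

include c in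
theorem supp {Q : Place K} (h : E Q ≠ 0) : Q ∈ Exc M' M := by
  obtain ⟨g, κ, κ', k1, k2⟩ := c.pair
  rw [← (c.hB.can g κ κ' k1 k2).2, c.rel g κ κ' k1 k2]
  exact Finsupp.mem_support_iff.2 h

include c in
theorem mem_pull {D : Div K} {f : K} (hf : f ∈ M.H0 D) : f ∈ M'.H0 (M.pull M' D) := by
  simpa using (c.hB.sec D 0 f (by simp) le_rfl).2 hf

include c in
/-- log canonicity -/
theorem lc {Q : Place K} (hQ : M'.Pr Q) :
    ∑ i, M.pull M' (Finsupp.single (d.P i) 1) Q ≤ 1 + E Q := by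
  classical
  obtain ⟨y, hy⟩ := hQ
  obtain ⟨t, ht, htT⟩ := d.snc.2 (pt m y)
  obtain ⟨t', ht'⟩ := c.h'.loc.coord y
  obtain ⟨j, hj⟩ := c.h'.loc.jac y t' t ht'
  obtain ⟨g, κ, κ', k1, k2⟩ := c.pair
  obtain ⟨j0, k3⟩ := rel_on c.h.loc c.h'.loc (c.B.jmd n) c.hB k1 k2 ht ht' hj
  have k4 := c.B.jac n N K M' c.h'.loc y t' t j Q ht' hy
    (fun i => (c.hB.le y (pt m y) rfl).1 (ht.1 i).1) hj j0
  have hc := ct_pt c.hB hy
  have k5 : ∀ k, 0 ≤ Q.ord (t k) := fun k => ord_nonneg_of_mem Q (hc _ (ht.1 k).1)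
  have k6 : ∀ i, Q.ord (M.eqn (pt m y) (d.P i)) ≤
      ∑ k, if M.Gn (pt m y) (d.P i) (t k) then Q.ord (t k) else 0 := fun i => by
    have k7 : ∀ k, 0 ≤ if M.Gn (pt m y) (d.P i) (t k) then Q.ord (t k) else 0 := fun k => by
      split_ifs
      exacts [k5 k, le_rfl]
    by_cases hx : M.On (pt m y) (d.P i)
    · obtain ⟨k, hk⟩ := htT _ ⟨i, rfl⟩ hx
      refine le_trans ?_ (Finset.single_le_sum (fun k _ => k7 k) (Finset.mem_univ k))
      rw [if_pos hk, ord_gn_eq (eqn_gn hx) hk hc]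
    · rw [eqn_off hx, ord_one]
      exact Finset.sum_nonneg fun k _ => k7 k
  have k8 : ∀ k, (∑ i, if M.Gn (pt m y) (d.P i) (t k) then Q.ord (t k) else 0) ≤ Q.ord (t k) :=
    fun k => by
      by_cases hk : ∃ i, M.Gn (pt m y) (d.P i) (t k)
      · obtain ⟨i, hi⟩ := hk
        rw [Finset.sum_eq_single i, if_pos hi]
        · exact fun i' _ e => if_neg fun k' => e (d.inj (gn_unique c.h.loc k' hi))
        · simp
      · rw [Finset.sum_eq_zero fun i _ => if_neg fun k' => hk ⟨i, k'⟩]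
        exact k5 k
  have k9 : ∑ i, Q.ord (M.eqn (pt m y) (d.P i)) ≤ 1 + Q.ord j := by
    have k10 := Finset.sum_le_sum fun i (_ : i ∈ Finset.univ) => k6 i
    rw [Finset.sum_comm] at k10
    have k11 := Finset.sum_le_sum fun k (_ : k ∈ Finset.univ) => k8 k
    omega
  rw [← c.rel g κ κ' k1 k2, k3 Q hy]
  simp only [pull_on c.hB hy, ordAt_single, one_mul]
  exact_mod_cast k9

include c in
theorem m_eq (i : d.I) (Q : Place K) :
    ((⌊M.pull M' (Finsupp.single (d.P i) 1) Q⌋₊ : ℕ) : ℝ) =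
      M.pull M' (Finsupp.single (d.P i) 1) Q :=
  floor_eq (pull_nonneg c.hB (Finsupp.single_nonneg.2 zero_le_one))
    (pull_int c.hB (IsInt.single _)) Q

variable [Fintype T] [DecidableEq T]

/-- the divisors on `M'` -/
@[reducible] def dat : Dat M' where
  J := d.J ⊕ T
  I := T
  D := Sum.elim (fun j => pl c.hB (d.D j)) fun Q => Finsupp.single Q.1 1
  dvD := by
    rintro (j | Q)
    exacts [dv_pull _, dv_single (c.snc.1 _ Q.2) _]
  int := by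
    rintro (j | Q)
    exacts [pull_int c.hB (d.int j), IsInt.single _]
  kK := Sum.elim d.kK fun Q => (⌊E Q⌋₊ : ℕ)
  can := by
    have h1 := c.can
    rw [← sum_floor (fun Q hQ => c.exc Q (c.supp hQ)) c.nonneg c.int, ← pl_apply c.hB,
      d.dZ_apply, map_sum] at h1
    simpa using h1
  P := Subtype.val
  inj := Subtype.val_injective
  snc := by rw [Subtype.range_coe]; exact c.snc
  S Q := Pi.single (Sum.inr Q) 1
  hS Q := by rw [Finset.sum_eq_single (Sum.inr Q)] <;> simp +contextual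

theorem bd_floor {D : Div K} (h : ∀ Q, D Q ≠ 0 → Q ∈ T) (h0 : 0 ≤ D) (hi : IsInt D) :
    D = c.dat.bd fun Q => ((⌊D Q⌋₊ : ℕ) : ℝ) := (sum_floor h h0 hi).symm

/-- the map of the lattices -/
def r : Matrix c.dat.J d.J ℤ := Matrix.fromRows 1 0

theorem r_mul (a : d.J → ℤ) : c.r.mulVec a = Sum.elim a 0 := by
  simp [r, Matrix.fromRows_mulVec]

theorem dZ_r (a : d.J → ℤ) : c.dat.dZ (c.r.mulVec a) = M.pull M' (d.dZ a) := by
  rw [r_mul, Dat.dZ_apply, Dat.dZ_apply, ← pl_apply c.hB]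
  simp [map_sum]

theorem dR_r (v : d.J → ℝ) : c.dat.dR (rl c.r v) = M.pull M' (d.dR v) := by
  have : rl c.r v = Sum.elim v 0 := by
    rw [rl, r, Matrix.fromRows_map, Matrix.map_one _ Int.cast_zero Int.cast_one,
      Matrix.map_zero _ Int.cast_zero]
    simp [Matrix.fromRows_mulVec]
  rw [this, Dat.dR_apply, Dat.dR_apply, ← pl_apply c.hB]
  simp [map_sum]

theorem dZ_K : c.dat.dZ c.dat.kK =
    M.pull M' (d.dZ d.kK) + c.dat.bd fun Q => ((⌊E Q⌋₊ : ℕ) : ℝ) := by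
  rw [Dat.dZ_apply, Dat.dZ_apply, ← pl_apply c.hB, Dat.bd]
  simp [map_sum]

variable {a : d.J → ℤ} {f : K}

theorem mem_r (hf : f ∈ M.H0 (d.dZ a)) : f ∈ M'.H0 (c.dat.dZ (c.r.mulVec a)) := by
  rw [dZ_r]; exact c.mem_pull hf

theorem hom : Hom (fun a => HO c.h (d.dZ a)) fun a f => c.dat.el c.h' (c.r.mulVec a) f where
  add a f hf g hg := c.dat.el_add c.h' (c.mem_r hf) (c.mem_r hg)
  smul a o f hf := c.dat.el_smul c.h' o (c.mem_r hf)
  mul a b f hf g hg := by rw [c.dat.el_mul c.h' (c.mem_r hf) (c.mem_r hg), Matrix.mulVec_add]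
  one := by rw [Matrix.mulVec_zero, Dat.el_one]

/-- the pull back of sections -/
def φ : (d.lm c.h).R →ₐ[O] (c.dat.lm c.h').R := lift (d.fam c.h) c.hom

theorem φ_el (hf : f ∈ M.H0 (d.dZ a)) : c.φ (d.el c.h a f) = c.dat.el c.h' (c.r.mulVec a) f :=
  lift_hm (hH := d.fam c.h) c.hom hf

theorem un_pull (hf : f ∈ M.H0 (d.dZ a)) (f0 : f ≠ 0)
    (hT : ∀ Q, (M.div f + d.dZ a) Q ≠ 0 → Q ∈ T) :
    ∃ u, (c.dat.lm c.h').Un (c.r.mulVec a - (c.dat.lm c.h').D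
        fun Q => ⌊M.pull M' (M.div f + d.dZ a) Q⌋₊) u ∧
      c.φ (d.el c.h a f) = u * (c.dat.lm c.h').mon fun Q => ⌊M.pull M' (M.div f + d.dZ a) Q⌋₊ := by
  rw [c.φ_el hf]
  refine c.dat.un_mon c.h' f0 ?_
  rw [← c.bd_floor (fun Q hQ => (pull_supp c.h.loc c.hB _ hQ).elim (hT Q) (c.exc Q))
    (pull_nonneg c.hB (div_add_nonneg c.h.loc (d.dv_dZ a) hf f0))
    (pull_int c.hB (IsInt.add (int_div c.h.loc f) (d.int_dZ a))), dZ_r, ← pl_apply c.hB (_ + _),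
    map_add, pl_apply, pl_apply, pull_div c.h.loc c.h'.loc c.hB f0]

/-- the modification -/
def blow : Blow (d.lm c.h) (c.dat.lm c.h') where
  r := c.r
  φ := c.φ
  exc Q := Q.1 ∈ Exc M' M
  m i Q := ⌊M.pull M' (Finsupp.single (d.P i) 1) Q.1⌋₊
  a Q := ⌊E Q.1⌋₊
  mem b x hx := by
    obtain ⟨f, hf, rfl⟩ := (d.mem_H c.h).1 hx
    rw [c.φ_el hf]; exact c.dat.el_mem _ (c.mem_r hf)
  inj b x hx h0 := by
    obtain ⟨f, hf, rfl⟩ := (d.mem_H c.h).1 hx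
    rw [c.φ_el hf] at h0
    exact (d.el_eq_zero c.h hf).2 ((c.dat.el_eq_zero _ (c.mem_r hf)).1 h0)
  surj b e he y hy := by
    obtain ⟨g, hg, rfl⟩ := (c.dat.mem_H c.h').1 hy
    have hg' : g ∈ M.H0 (d.dZ b) := by
      rw [map_add, c.dZ_r, c.dat.dZ_D] at hg
      refine (c.hB.sec _ _ g (fun Q hQ => ?_) (c.dat.bd_nonneg fun _ => Nat.cast_nonneg _)).1 hg
      rw [Finset.mem_coe, Finsupp.mem_support_iff] at hQ
      obtain ⟨j, rfl⟩ : Q ∈ range c.dat.P := by_contra fun k => hQ (c.dat.bd_off _ k)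
      rw [c.dat.bd_apply] at hQ
      exact he j (by exact_mod_cast hQ)
    refine ⟨_, d.el_mem c.h hg', ?_⟩
    rw [c.φ_el hg', c.dat.mon_eq]
    exact ((c.dat.el_mul c.h' (c.dat.one_D c.h' e) (c.mem_r hg')).trans
      (by rw [one_mul, add_comm])).symm
  K_eq := ⟨_, c.dat.un_one c.h' (by
    rw [map_sub, map_add, c.dZ_r, c.dat.dZ_D, c.dZ_K, sub_self])⟩
  a_exc j hj := c.supp fun e => hj (by rw [e, Nat.floor_zero])
  lc j := by
    have h1 := c.lc (c.snc.1 _ j.2)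
    rw [← floor_eq c.nonneg c.int j.1, ← Finset.sum_congr rfl fun i _ => c.m_eq i j.1] at h1
    exact_mod_cast h1
  pull i := by
    have h1 := c.un_pull (d.one_S i) one_ne_zero (fun Q hQ => by
      rw [div_one c.h.loc, zero_add, d.dZ_S] at hQ
      exact by_contra fun k => hQ (Finsupp.single_eq_of_ne fun e => k (e ▸ c.sub i)))
    rw [div_one c.h.loc, zero_add, d.dZ_S] at h1
    exact h1
  amp := by
    obtain ⟨H, h1, h2, h3, h4⟩ := c.hB.amp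
    have h5 : ∀ Q, H Q ≠ 0 → Q ∈ Exc M' M := fun Q hQ => h1 ▸ Finsupp.mem_support_iff.2 hQ
    refine ⟨fun Q => ⌊H Q.1⌋₊, fun Q hQ => h5 _ fun e => hQ (by simp only [e, Nat.floor_zero]),
      fun A hA => ?_⟩
    obtain ⟨ε, h6, h7⟩ := h4 _ hA
    refine ⟨ε, h6, ?_⟩
    show M'.Amp (c.dat.dR _)
    rw [map_sub, map_smul, c.dR_r, ← c.dat.dZ_eq, c.dat.dZ_D,
      ← c.bd_floor (fun Q hQ => c.exc Q (h5 Q hQ)) h3 h2]
    exact h7
  nef A hA A' hA' := by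
    show M'.Amp (c.dat.dR _)
    rw [map_add, c.dR_r]
    exact c.hB.nef _ (fun A'' h => c.h.pos.add _ _ hA h) _ hA'

end BC

/-- **Log resolutions.** -/
theorem blow (B : Box) : ∀ n (X : LM O), G O n X → ∀ T : Finset ((X.J → ℤ) × X.R),
    (∀ t ∈ T, t.2 ∈ X.H t.1 ∧ t.2 ≠ 0) → ∃ Y, G O n Y ∧ ∃ Z : Blow X Y, ∀ t ∈ T, ∃ e u,
      Y.Un (Z.r.mulVec t.1 - Y.D e) u ∧ Z.φ t.2 = u * Y.mon e := by
  rintro n _ ⟨N, K, _, _, _, M, h, d, rfl⟩ T₀ hT₀
  have h1 : ∀ t : T₀, ∃ f ∈ M.H0 (d.dZ t.1.1), d.el h t.1.1 f = t.1.2 := fun t =>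
    (d.mem_H h).1 (hT₀ t.1 t.2).1
  choose f hf hfe using h1
  have f0 : ∀ t, f t ≠ 0 := fun t e => (hT₀ t.1 t.2).2 (by
    rw [← hfe t]; exact (d.el_eq_zero h (hf t)).2 e)
  set T : Set (Place K) := range d.P ∪ ⋃ t : T₀, ((M.div (f t) + d.dZ t.1.1).support : Set _)
    with hT
  have hTf : T.Finite := (finite_range _).union (finite_iUnion fun t => Finset.finite_toSet _)
  obtain ⟨M', ⟨m⟩, hM', hg⟩ := B.hir n N K M h.proj T 0 (fun j => j.elim0) hTf fun j => j.elim0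
  have hB := B.bir n N K M h.proj M' m hM'
  have hsnc : M'.Snc (T ∪ Exc M' M) := by
    refine ⟨?_, fun y => ?_⟩
    · rintro P ((⟨i, rfl⟩ | hP) | hP)
      · exact hB.pr _ (d.pr i)
      · obtain ⟨t, ht⟩ := mem_iUnion.1 hP
        exact hB.pr _ (dv_add (dv_div _) (d.dv_dZ _) P ht)
      · exact hP.1
    · obtain ⟨-, t, k1, k2⟩ := hg y
      exact ⟨t, k1, fun P hP hy => k2 P hy (Or.inl hP)⟩
  obtain ⟨E, c⟩ := exists_bc B h d m hM' (T := T ∪ Exc M' M)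
    (fun i => Or.inl (Or.inl ⟨i, rfl⟩)) (fun Q hQ => Or.inr hQ) hsnc
  letI : Fintype ↥(T ∪ Exc M' M) := (hTf.union hB.fin).fintype
  letI : DecidableEq ↥(T ∪ Exc M' M) := Classical.decEq _
  refine ⟨_, ⟨N, K, _, _, _, M', c.h', c.dat, rfl⟩, c.blow, fun t ht => ?_⟩
  obtain ⟨u, k1, k2⟩ := c.un_pull (hf ⟨t, ht⟩) (f0 _) fun Q hQ =>
    Or.inl (Or.inr (mem_iUnion.2 ⟨⟨t, ht⟩, Finsupp.mem_support_iff.2 hQ⟩))
  exact ⟨_, u, k1, hfe ⟨t, ht⟩ ▸ k2⟩

/-- **The blow up of the intersection of two components.** -/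
theorem blowC (B : Box) : ∀ n (X : LM O), G O n X → ∀ j l, j ≠ l → ¬ X.dis j l →
    ∃ Y, G O n Y ∧ Nonempty (BlowC X j l Y) := by
  rintro n _ ⟨N, K, _, _, _, M, h, d, rfl⟩ j l hjl -
  obtain ⟨M', m, hM', hsnc, k1, k2, k3, k4⟩ := bll B n N K M h.proj (range d.P) (d.P j) (d.P l)
    d.snc ⟨j, rfl⟩ ⟨l, rfl⟩ (d.inj.ne hjl)
  have hB := B.bir n N K M h.proj M' m hM'
  obtain ⟨E, c⟩ := exists_bc B h d m hM' (T := range d.P ∪ Exc M' M)
    (fun i => Or.inl ⟨i, rfl⟩) (fun Q hQ => Or.inr hQ) hsnc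
  letI : Fintype ↥(range d.P ∪ Exc M' M) := ((finite_range _).union hB.fin).fintype
  letI : DecidableEq ↥(range d.P ∪ Exc M' M) := Classical.decEq _
  refine ⟨_, ⟨N, K, _, _, _, M', c.h', c.dat, rfl⟩, ⟨
    { toBlow := c.blow
      s := fun i => ⟨d.P i, Or.inl ⟨i, rfl⟩⟩
      s_inj := fun i i' e => d.inj (congrArg Subtype.val e)
      exc_iff := ?_
      m_s := ?_
      m_exc := ?_
      a_eq := ?_
      dis_jl := fun y a b => k1 y ⟨a, b⟩
      dis_s := fun i i' k y a b => k (pt m y) (hB.on y _ _ rfl a (d.pr i))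
        (hB.on y _ _ rfl b (d.pr i'))
      dis_exc := fun Q Q' a b e y a' b' => e (Subtype.ext (k2 y _ a _ b a' b')) }⟩⟩
  · rintro ⟨Q, hQ⟩
    constructor
    · rintro k ⟨i, e⟩
      obtain rfl : d.P i = Q := congrArg Subtype.val e
      exact k.2 (d.pr i)
    · intro k
      rcases hQ with ⟨i, rfl⟩ | hQ
      · exact (k ⟨i, rfl⟩).elim
      · exact hQ
  · intro i i'
    show ⌊M.pull M' (Finsupp.single (d.P i) 1) (d.P i')⌋₊ = _
    rw [pull_pr h.loc hB (d.pr i')]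
    split_ifs with e
    · rw [e, Finsupp.single_eq_same, Nat.floor_one]
    · rw [Finsupp.single_eq_of_ne (d.inj.ne (Ne.symm e)), Nat.floor_zero]
  · intro i Q hQ
    show ⌊M.pull M' (Finsupp.single (d.P i) 1) Q.1⌋₊ = _
    rw [k3 Q.1 hQ _ ⟨i, rfl⟩]
    by_cases e : i = j ∨ i = l
    · rw [if_pos e, if_pos (e.imp (congrArg d.P) (congrArg d.P)), Nat.floor_one]
    · rw [if_neg e, if_neg fun k => e (k.imp (fun a => d.inj a) fun a => d.inj a), Nat.floor_zero]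
  · intro Q hQ
    show ⌊E Q.1⌋₊ = 1
    obtain ⟨g, κ, κ', a, b⟩ := c.pair
    rw [← c.rel g κ κ' a b, k4 g κ κ' a b Q.1 hQ, Nat.floor_one]

end Vale.Agent.P277Z.FI
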