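import Vale.Agent.P277Z.FI.Sk3
import Vale.Agent.P277Z.FG.R62

/-!
# P277Z: from models to their shadows
-/

open Set Filter Topology
open Vale.Agent.P272.K (Cm)
open P277Z.Gr P277Z.Gr.Rg P277Z.FG

noncomputable section

namespace Vale.Agent.P277Z.FI

namespace DownH

theorem not_pr {N : ℕ} {K : Type} [Field K] [Algebra ℂ K] (M : Mdl 0 N K)
    (P : Vale.Agent.P297.Place K) : ¬ M.Pr P := by
  rintro ⟨x, t, ht⟩
  have h1 : ∀ᶠ y : M.W in 𝓝 (x : M.W), y = (x : M.W) := by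
    filter_upwards [chart_source_mem_nhds (Cm 0) (x : M.W)] with y hy
    exact (chartAt (Cm 0) (x : M.W)).injOn hy (mem_chart_source _ _) (Subsingleton.elim _ _)
  obtain ⟨y, h2, rfl⟩ := ((M.at_pt (M.val_mul t t⁻¹) x).and (gen_of_nhds h1)).exists
  rw [mul_inv_cancel₀ (gn_ne ht), M.val_one, ht.van, zero_mul] at h2
  exact one_ne_zero h2

theorem fg_inf_comap {A B : Type} [AddCommMonoid A] [AddCommMonoid B] [IsCancelAdd B]
    (φ : A →+ B) (T : Finset A) (s : Finset B) :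
    (AddSubmonoid.closure (T : Set A) ⊓ (AddSubmonoid.closure (s : Set B)).comap φ).FG := by
  let F : (s ⊕ T → ℕ) →+ B :=
    { toFun := fun n => ∑ i : s, n (Sum.inl i) • i.1
      map_zero' := by simp
      map_add' := fun n n' => by simp [add_nsmul, Finset.sum_add_distrib] }
  let G : (s ⊕ T → ℕ) →+ A :=
    { toFun := fun n => ∑ j : T, n (Sum.inr j) • j.1
      map_zero' := by simp
      map_add' := fun n n' => by simp [add_nsmul, Finset.sum_add_distrib] }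
  have h : (F.eqLocusM (φ.comp G)).map G =
      AddSubmonoid.closure (T : Set A) ⊓ (AddSubmonoid.closure (s : Set B)).comap φ := by
    refine le_antisymm ?_ fun a ha => ?_
    · rintro _ ⟨n, hn, rfl⟩
      have hn' : F n = φ (G n) := hn
      exact ⟨AddSubmonoid.mem_closure_finset'.2 ⟨_, rfl⟩,
        AddSubmonoid.mem_closure_finset'.2 ⟨_, hn'.symm⟩⟩
    · obtain ⟨m, hm⟩ := AddSubmonoid.mem_closure_finset'.1 ha.1
      obtain ⟨m', hm'⟩ := AddSubmonoid.mem_closure_finset'.1 (AddSubmonoid.mem_comap.1 ha.2)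
      exact ⟨Sum.elim m' m, hm'.symm.trans (congrArg φ hm), hm.symm⟩
  exact h ▸ (AddSubmonoid.fg_eqLocusM F (φ.comp G)).map G

theorem ho_ne {n N : ℕ} {K : Type} [Field K] [Algebra ℂ K] {O : Type} [CommRing O] [Algebra O K]
    {M : Mdl n N K} (h : Gd O M) (d : Dat M) (a : d.J → ℤ) :
    (d.lm h).H a ≠ ⊥ ↔ M.H0 (d.dZ a) ≠ ⊥ :=
  (HH_ne_bot (hH := d.fam h)).trans ((Submodule.ne_bot_iff _).trans
    (Submodule.ne_bot_iff (M.H0 (d.dZ a))).symm)

theorem ne_closure {n N : ℕ} {K : Type} [Field K] [Algebra ℂ K] {M : Mdl n N K} {s : Set (Div K)}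
    (h : ∀ L ∈ s, M.H0 L ≠ ⊥) {L : Div K} (hL : L ∈ AddSubmonoid.closure s) : M.H0 L ≠ ⊥ := by
  induction hL using AddSubmonoid.closure_induction with
  | mem L hL => exact h L hL
  | zero => exact (Submodule.ne_bot_iff _).2 ⟨1, (fam_H0 M).one, one_ne_zero⟩
  | add L L' _ _ h1 h2 =>
    obtain ⟨f, hf, f0⟩ := (Submodule.ne_bot_iff _).1 h1
    obtain ⟨g, hg, g0⟩ := (Submodule.ne_bot_iff _).1 h2
    exact (Submodule.ne_bot_iff _).2 ⟨f * g, (fam_H0 M).mul hf hg, mul_ne_zero f0 g0⟩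

end DownH

variable {O : Type} [CommRing O]

theorem zero (X : LM O) : G O 0 X → IsEmpty X.I ∧ ∀ a, X.H a ≠ ⊥ := by
  rintro ⟨N, K, _, _, _, M, h, d, rfl⟩
  exact ⟨⟨fun i => DownH.not_pr M _ (d.pr i)⟩, fun a => (DownH.ho_ne h d a).2
    ((Submodule.ne_bot_iff _).2 ⟨1, Or.inr fun P hP => (DownH.not_pr M P hP).elim, one_ne_zero⟩)⟩

theorem thb_lm (n : ℕ) (X : LM O) : THB n → G O n X → X.ThB := by
  classical
  rintro hB ⟨N, K, _, _, _, M, h, d, rfl⟩ T hT
  have hcl : AddSubmonoid.closure ((T.image d.dZ : Finset (Div K)) : Set (Div K)) =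
      (AddSubmonoid.closure (T : Set (d.J → ℤ))).map d.dZ := by
    rw [Finset.coe_image, AddMonoidHom.map_mclosure]
  obtain ⟨s', h1, h2⟩ := hB N K M h.proj (d.dZ d.kK) (range d.P) (T.image d.dZ)
    ⟨d.can', finite_range _, d.snc, fun L hL => by
      obtain ⟨t, -, rfl⟩ := Finset.mem_image.1 hL
      exact d.dv_dZ t, fun L hL => by
      obtain ⟨t, -, rfl⟩ := Finset.mem_image.1 hL
      exact d.int_dZ t, fun L hL => by
      obtain ⟨t, ht, rfl⟩ := Finset.mem_image.1 hL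
      obtain ⟨c, hc, A, hA, b, hb, e⟩ := hT t ht
      refine ⟨c, hc, d.bd b, fun Q hQ => by_contra fun k =>
        Finsupp.mem_support_iff.1 hQ (d.bd_off b k), fun Q => ?_, ?_⟩
      · by_cases hQ : Q ∈ range d.P
        · obtain ⟨i, rfl⟩ := hQ
          rw [d.bd_apply]
          exact hb i
        · rw [d.bd_off b hQ]
          exact ⟨le_rfl, zero_le_one⟩
      · have e' : c⁻¹ • d.dZ t - d.dZ d.kK - d.bd b = d.dR A := by
          rw [d.dZ_eq t, e, map_smul, inv_smul_smul₀ hc.ne', map_add, map_add, d.dR_DR h,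
            ← d.dZ_eq]
          abel
        rw [e']
        exact hA⟩
  obtain ⟨T', hT'⟩ := DownH.fg_inf_comap d.dZ T s'
  refine ⟨T', fun t ht => ?_, fun a ha h0 => ?_⟩
  · have h3 := hT' ▸ AddSubmonoid.subset_closure (s := (T' : Set (d.J → ℤ))) ht
    exact ⟨h3.1, (DownH.ho_ne h d t).2 (DownH.ne_closure (fun L hL => (h1 L hL).2) h3.2)⟩
  · obtain ⟨m, hm, h3⟩ := h2 (d.dZ a) (hcl ▸ ⟨a, ha, rfl⟩) ((DownH.ho_ne h d a).1 h0)
    refine ⟨m, hm, ?_⟩
    rw [hT']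
    exact ⟨AddSubmonoid.nsmul_mem _ ha m, AddSubmonoid.mem_comap.2 (by rwa [map_nsmul])⟩

theorem lab_zero (hC : CLS) : LAB 0 := by
  intro O _ _ _ X hX
  have hB : X.ThB := fun T _ => ⟨T, fun t ht => ⟨AddSubmonoid.subset_closure ht,
    ((hC O).zero X hX).2 t⟩, fun a ha _ => ⟨1, one_pos, by rwa [one_smul]⟩⟩
  exact ⟨(hC O).thA (fun Y hY i => (((hC O).zero Y hY).1.false i).elim) hX hB, hB⟩

theorem lab_succ (hC : CLS) (h4 : S4A) (n : ℕ) : LAB n → THB (n + 1) → LAB (n + 1) := by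
  intro hL hB O _ _ _ X hX
  have h := thb_lm (n + 1) X hB hX
  exact ⟨(hC O).thA ((hC O).thR (h4 O) (hL O)) hX h, h⟩

end Vale.Agent.P277Z.FI
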