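import Vale.Agent.P277Z.FI.Dv
import Vale.Agent.P277Z.Gr.Ver

/-!
# P277Z: finite generation of adjoint rings from Theorem A
-/

set_option linter.all false

open Set
open Vale.Agent.P297 (Place)

noncomputable section

namespace Vale.Agent.P277Z.FI

variable {n N : ℕ} {K : Type} [Field K] [Algebra ℂ K]

/-- a common denominator -/
theorem exists_den_fam {ι : Type} [Finite ι] {D : ι → Div K} (h : ∀ i, IsRat (D i)) :
    ∃ q : ℕ, 0 < q ∧ ∀ i, IsInt ((q : ℝ) • D i) := by
  classical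
  have := Fintype.ofFinite ι
  choose r hr using h
  refine ⟨∏ i, ∏ P ∈ (D i).support, (r i P).den,
    Finset.prod_pos fun i _ => Finset.prod_pos fun P _ => (r i P).den_pos, fun i P => ?_⟩
  by_cases hP : P ∈ (D i).support
  · obtain ⟨c, hc⟩ := (Finset.dvd_prod_of_mem (fun P => (r i P).den) hP).trans
      (Finset.dvd_prod_of_mem (fun i => ∏ P ∈ (D i).support, (r i P).den) (Finset.mem_univ i))
    refine ⟨c * (r i P).num, ?_⟩
    have h1 : ((r i P : ℚ) : ℝ) * (r i P).den = (r i P).num := by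
      exact_mod_cast Rat.mul_den_eq_num (r i P)
    rw [hc, Finsupp.smul_apply, smul_eq_mul, hr i P]
    push_cast
    rw [← h1]
    ring
  · exact ⟨0, by simp [Finsupp.notMem_support_iff.1 hP]⟩

theorem fg_of (B : Box) (n : ℕ) (hA : THA n) : Vale.Agent.P277Z.FG n := by
  classical
  intro N K _ _ M hM g κ A T k Bd hκ hAm hAd hAr hT hS hB
  have hL := B.loc n N K M hM
  have := (B.coh n N K M hM).noeth
  have hc := isCan_of hL hκ
  obtain ⟨q, hq, hqi⟩ := exists_den_fam (D := fun i => κ + A + Bd i) fun i P => by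
    obtain ⟨a, ha⟩ := hc.int hL P
    obtain ⟨b, hb⟩ := hAr P
    obtain ⟨c, hc⟩ := (hB i).2.1 P
    exact ⟨a + b + c, by simp [ha, hb, hc]⟩
  have hq' : (0 : ℝ) < q := Nat.cast_pos.2 hq
  have h1 := hA N K M hM κ T (Finset.univ.image fun i => (q : ℝ) • (κ + A + Bd i))
    ⟨hc, hT, hS, ?_, ?_, ?_⟩
  rotate_left
  · simp only [Finset.forall_mem_image]
    exact fun i _ => dv_smul (dv_add (dv_add hc.dv hAd) fun P hP => hS.1 P ((hB i).1 hP)) _
  · simp only [Finset.forall_mem_image]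
    exact fun i _ => hqi i
  · simp only [Finset.forall_mem_image]
    refine fun i _ => ⟨q, hq', Bd i, (hB i).1, fun P => ⟨((hB i).2.2 P).1, ((hB i).2.2 P).2.le⟩, ?_⟩
    rwa [inv_smul_smul₀ hq'.ne', add_sub_right_comm, add_sub_cancel_left, add_sub_cancel_right]
  let φ : (Fin k → ℕ) →+ Div K :=
    { toFun := fun m => ∑ i, (m i : ℝ) • (κ + A + Bd i)
      map_zero' := by simp
      map_add' := fun a b => by
        simp only [Pi.add_apply, Nat.cast_add, add_smul, Finset.sum_add_distrib] }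
  have hF : (⊤ : AddSubmonoid (Fin k → ℕ)).FG := AddMonoid.FG.fg_top
  have h2 := P277Z.Gr.FGm.comap (fam_H0 M) h1 φ (AddSubmonoid.map (nsmulAddMonoidHom q) ⊤)
    (hF.map _) ?_
  · exact P277Z.Gr.FGm.of_index ((fam_H0 M).comap φ) (@P277Z.Gr.idl_bot _ _ _ _ _ _ _ _)
      (@P277Z.Gr.prm_bot _ _ _ _ _ _ _ _ _) ⊤ hF hq h2
  · rintro _ ⟨a, -, rfl⟩
    refine SetLike.mem_coe.2 (AddSubmonoid.sum_mem _ (t := Finset.univ)
      (f := fun i => (((nsmulAddMonoidHom q a) i : ℕ) : ℝ) • (κ + A + Bd i)) fun i _ => ?_)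
    have : (((nsmulAddMonoidHom q a) i : ℕ) : ℝ) • (κ + A + Bd i) =
        a i • (q : ℝ) • (κ + A + Bd i) := by
      simp [← Nat.cast_smul_eq_nsmul ℝ, smul_smul, mul_comm]
    rw [this]
    exact AddSubmonoid.nsmul_mem _ (AddSubmonoid.subset_closure (by simp)) _

end Vale.Agent.P277Z.FI
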