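import Vale.Agent.P277Z.FI.Lm

/-!
# P277Z: the statements that link the abstract layer with models
-/

set_option linter.all false

open Set
open Vale.Agent.P297 (Place)
open P277Z.FG

noncomputable section

namespace Vale.Agent.P277Z.FI

variable {n N : ℕ} {K : Type} [Field K] [Algebra ℂ K]

/-- Restricted adjoint rings are finitely generated. -/
def ThR (M : Mdl n N K) : Prop := ∀ (κ : Div K) (P : Place K) (T : Set (Place K))
  (s : Finset (Div K)), P ∉ T → IsCan M κ → T.Finite → M.Snc (insert P T) →
  (∀ L ∈ s, M.Dv L ∧ IsInt L ∧ Adj M (κ + Finsupp.single P 1) T L) →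
  P277Z.Gr.FGm M.H0 (fun L => M.H0 (L - Finsupp.single P 1))
    (AddSubmonoid.closure (s : Set (Div K)) : Set (Div K))

/-- **THR** -/
def THR (n : ℕ) : Prop := ForM n fun _ _ _ _ M => ThR M

/-- **S5R**: non-vanishing from the finite generation of restricted rings -/
def S5R : Prop := ∀ n, THR (n + 1) → THB (n + 1)

/-- **CLS**: the shadows of models form a class -/
def CLS : Prop := ∀ (O : Type) [CommRing O], Cls (G O)

/-- **S4A** -/
def S4A : Prop := ∀ (O : Type) [CommRing O] [IsNoetherianRing O] [Algebra ℚ O], S4 O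

/-- **LAB**: Theorems A and B for the shadows -/
def LAB (n : ℕ) : Prop := ∀ (O : Type) [CommRing O] [IsNoetherianRing O] [Algebra ℚ O] (X : LM O),
  G O n X → X.ThA ∧ X.ThB

end Vale.Agent.P277Z.FI
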