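import Vale.Agent.P277Z.FI.Res1
import Vale.Agent.P277Z.FI.Sk3
import Vale.Agent.P277Z.FG.R62

/-!
# P277Z: from shadows to models
-/

set_option linter.all false

open Set Filter Topology
open Vale.Agent.P297 (Place)
open P277Z.Gr P277Z.Gr.Rg P277Z.FG

noncomputable section

namespace Vale.Agent.P277Z.FI

namespace Upp

variable {n N : ℕ} {K : Type} [Field K] [Algebra ℂ K] {M : Mdl n N K}

theorem gd_self (B : Box) (hM : M.Proj) : Gd M.O₀ M where
  proj := hM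
  loc := B.loc n N K M hM
  pos := B.pos n N K M hM
  coh := B.coh n N K M hM
  mem c := c.2
  base c hc := by
    obtain ⟨f, hf⟩ := M.surj _ fun x hx => Lo.mer_of_hol (hol_base hc hx)
    exact ⟨⟨f, Algebra.mem_iInf.2 fun x => M.mem_O_of (hol_base hc x.2) (M.at_pt hf x)⟩, hf⟩

theorem HO_self (h : Gd M.O₀ M) : HO h = M.H0 := funext fun _ => Submodule.ext fun _ => Iff.rfl

theorem sum_single {J : Type} [Fintype J] [DecidableEq J] (D : J → Div K) (j : J) :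
    ∑ l, ((Pi.single j 1 : J → ℤ) l : ℝ) • D l = D j := by
  rw [Finset.sum_eq_single j] <;> simp +contextual

theorem exists_dat (hL : Loc M) {κ : Div K} {T : Set (Place K)} {s : Finset (Div K)}
    (can : IsCan M κ) (fin : T.Finite) (snc : M.Snc T) (hs : ∀ L ∈ s, M.Dv L ∧ IsInt L) :
    ∃ d : Dat M, range d.P = T ∧ d.dZ d.kK = κ ∧ ∃ t : Finset (d.J → ℤ), d.dZ '' t = s := by
  classical
  letI := fin.fintype
  let D : (s ⊕ T) ⊕ Unit → Div K :=
    Sum.elim (Sum.elim Subtype.val fun Q => Finsupp.single Q.1 1) fun _ => κ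
  let d : Dat M :=
    { J := (s ⊕ T) ⊕ Unit
      I := T
      D := D
      dvD := by
        rintro ((L | Q) | _)
        exacts [(hs _ L.2).1, dv_single (snc.1 _ Q.2) _, can.dv]
      int := by
        rintro ((L | Q) | _)
        exacts [(hs _ L.2).2, IsInt.single _, can.int hL]
      kK := Pi.single (.inr ()) 1
      can := by rwa [sum_single]
      P := Subtype.val
      inj := Subtype.val_injective
      snc := by rwa [Subtype.range_coe]
      S Q := Pi.single (.inl (.inr Q)) 1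
      hS Q := sum_single _ _ }
  have h : ∀ j, d.dZ (Pi.single j 1) = D j := fun j => (d.dZ_apply _).trans (sum_single _ _)
  refine ⟨d, Subtype.range_coe, h _, Finset.univ.image fun L : s => Pi.single (.inl (.inl L)) 1, ?_⟩
  rw [Finset.coe_image, Finset.coe_univ, image_univ, ← range_comp]
  exact (congrArg range (funext fun L => h _)).trans Subtype.range_coe

variable {O : Type} [CommRing O] [Algebra O K] (h : Gd O M) (d : Dat M)

theorem adj_lm {T : Set (Place K)} (hT : T ⊆ range d.P) {k a : d.J → ℤ}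
    (hA : Adj M (d.dZ k) T (d.dZ a)) : ∃ δ : ℝ, 0 < δ ∧ ∃ A ∈ (d.lm h).Amp, ∃ b : d.I → ℝ,
      (∀ l, 0 ≤ b l ∧ b l ≤ 1) ∧ (∀ l, d.P l ∉ T → b l = 0) ∧
        cst a = δ • (cst k + A + (d.lm h).DR b) := by
  obtain ⟨δ, h0, B, h1, h2, h3⟩ := hA
  have h4 : ∀ Q, B Q ≠ 0 → Q ∈ T := fun Q hQ => h1 (Finsupp.mem_support_iff.2 hQ)
  refine ⟨δ, h0, δ⁻¹ • cst a - cst k - (d.lm h).DR fun l => B (d.P l), ?_, _, fun l => h2 _,
    fun l hl => by_contra fun e => hl (h4 _ e), ?_⟩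
  · rwa [d.mem_Amp, map_sub, map_sub, map_smul, d.dR_DR, ← d.bd_ext fun Q hQ => hT (h4 Q hQ)]
  · rw [sub_sub, add_right_comm, add_sub_cancel, smul_inv_smul₀ h0.ne']

theorem img_closure {t : Finset (d.J → ℤ)} {s : Finset (Div K)} (e : d.dZ '' t = s) :
    d.dZ '' (AddSubmonoid.closure (t : Set (d.J → ℤ)) : Set _) =
      (AddSubmonoid.closure (s : Set (Div K)) : Set _) := by
  rw [← e, ← AddMonoidHom.map_mclosure, AddSubmonoid.coe_map]

theorem fg_cl {J : Type*} [AddCommMonoid J] (t : Finset J) :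
    (AddSubmonoid.closure (t : Set J)).FG := ⟨t, rfl⟩

theorem tr_Dv (i : d.I) (S : AddSubmonoid (d.J → ℤ)) :
    Tr (fun a => HO h (d.dZ a)) (fun a => HO h (d.dZ a - Finsupp.single (d.P i) 1)) (d.lm h).H
      ((d.lm h).Dv i 1) S (d.el h) :=
  { tr (hH := d.fam h) S with
    ker := fun a _ f hf => by
      rw [d.mem_Dv, Nat.cast_one, one_smul]
      refine ⟨fun ⟨g, hg, e⟩ => ?_, fun k => ⟨f, k, rfl⟩⟩
      rwa [(d.el_inj h (H0_mono (sub_le_self _ (Finsupp.single_nonneg.2 zero_le_one)) hg) hf).1 e]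
        at hg
    surj := fun a _ x hx => by
      obtain ⟨f, hf, rfl⟩ := (d.mem_H h).1 hx
      exact ⟨f, hf, by rw [sub_self]; exact zero_mem _⟩ }

theorem lab_of (B : Box) (hA : LAB n) (hM : M.Proj) {κ : Div K} {T : Set (Place K)}
    {s : Finset (Div K)} (hS : Sys M κ T s) : ∃ (h : Gd M.O₀ M) (d : Dat M)
      (t : Finset (d.J → ℤ)), d.dZ '' t = s ∧ (∀ a ∈ t, cst a ∈ (d.lm h).Adj) ∧
        (d.lm h).ThA ∧ (d.lm h).ThB := by
  have h := gd_self B hM
  haveI := h.coh.noeth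
  letI : Algebra ℚ M.O₀ := ((algebraMap ℂ M.O₀).comp (algebraMap ℚ ℂ)).toAlgebra
  obtain ⟨d, h1, rfl, t, h2⟩ := exists_dat h.loc hS.can hS.fin hS.snc
    fun L hL => ⟨hS.dv L hL, hS.int L hL⟩
  refine ⟨h, d, t, h2, fun a ha => ?_, hA _ _ ⟨N, K, _, _, _, M, h, d, rfl⟩⟩
  obtain ⟨δ, k1, A, k2, b, k3, -, k4⟩ := adj_lm h d h1.ge
    (hS.adj _ (Finset.mem_coe.1 (h2 ▸ mem_image_of_mem _ ha)))
  exact ⟨δ, k1, A, k2, b, k3, k4⟩

theorem tha_of (B : Box) (n : ℕ) (hA : LAB n) : THA n := by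
  intro N K _ _ M hM κ T s hS
  obtain ⟨h, d, t, h1, h2, h3, -⟩ := lab_of B hA hM hS
  rw [← HO_self h, ← img_closure d h1]
  exact FGm.map (N := fun _ => ⊥) d.dZ (fg_of_HH (hH := d.fam h) (fg_cl t) (h3 t h2))

theorem thb_of (B : Box) (n : ℕ) (hA : LAB n) : THB n := by
  classical
  intro N K _ _ M hM κ T s hS
  obtain ⟨h, d, t, h1, h2, -, h3⟩ := lab_of B hA hM hS
  obtain ⟨t', h4, h5⟩ := h3 t h2
  have e := img_closure d h1
  have e' := img_closure d (Finset.coe_image (s := t') (f := d.dZ)).symm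
  rw [← HO_self h]
  refine ⟨t'.image d.dZ, fun L hL => ?_, fun L hL h0 => ?_⟩
  · obtain ⟨a, ha, rfl⟩ := Finset.mem_image.1 hL
    exact ⟨e.le (mem_image_of_mem _ (h4 a ha).1), (HH_ne_bot (hH := d.fam h)).1 (h4 a ha).2⟩
  · obtain ⟨a, ha, rfl⟩ := e.ge hL
    obtain ⟨m, k1, k2⟩ := h5 a ha ((HH_ne_bot (hH := d.fam h)).2 h0)
    exact ⟨m, k1, map_nsmul d.dZ m a ▸ e'.le (mem_image_of_mem _ k2)⟩

theorem thr_of (B : Box) (hC : CLS) (h4 : S4A) (n : ℕ) (hA : LAB n) : THR (n + 1) := by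
  intro N K _ _ M hM κ P T s hP can fin snc hs
  have h := gd_self B hM
  haveI := h.coh.noeth
  letI : Algebra ℚ M.O₀ := ((algebraMap ℂ M.O₀).comp (algebraMap ℚ ℂ)).toAlgebra
  obtain ⟨d, h1, rfl, t, h2⟩ := exists_dat h.loc can (fin.insert P) snc
    fun L hL => ⟨(hs L hL).1, (hs L hL).2.1⟩
  obtain ⟨i, rfl⟩ : P ∈ range d.P := h1 ▸ mem_insert _ _
  have key := (hC _).res_succ (h4 _) (hA _) ⟨N, K, _, _, _, M, h, d, rfl⟩ i t fun a ha => by
    have := (hs _ (Finset.mem_coe.1 (h2 ▸ mem_image_of_mem _ ha))).2.2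
    rw [← d.dZ_S, ← map_add] at this
    obtain ⟨δ, k1, A, k2, b, k3, k4, k5⟩ := adj_lm h d (h1 ▸ subset_insert _ _) this
    exact ⟨δ, k1, A, k2, b, k3, k4 i hP, k5⟩
  rw [← HO_self h, ← img_closure d h2]
  exact FGm.map (N := fun L => HO h (L - Finsupp.single (d.P i) 1)) d.dZ
    ((tr_Dv h d i _).fgm_left (d.fam h) (d.lm h).fam (@LM.idl_Dv _ _ (d.lm h) i 1) (fg_cl t) key)

end Upp

end Vale.Agent.P277Z.FI
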