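import Vale.Agent.P277Z.FI.Res
import Vale.Agent.P277Z.FI.Blow
import Vale.Agent.P277Z.FI.Upp
import Vale.Agent.P277Z.FI.Down
import Vale.Agent.P277Z.FI.Fg
import Vale.Agent.P277Z.FG.S4

/-!
# P277Z: finite generation from the toolbox and non-vanishing
-/

set_option linter.all false

namespace Vale.Agent.P277Z.FI

theorem cls (B : Box) : CLS := fun _ _ =>
  ⟨zero, fun n X i => res B n X i, blow B, blowC B⟩

theorem s4a : S4A := fun _ _ _ _ => P277Z.FG.S4.s4

theorem lab_all (B : Box) (h : S5R) : ∀ n, LAB n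
  | 0 => lab_zero (cls B)
  | n + 1 => lab_succ (cls B) s4a n (lab_all B h n)
      (h n (Upp.thr_of B (cls B) s4a n (lab_all B h n)))

theorem tha_all (B : Box) (h : S5R) (n : ℕ) : THA n := Upp.tha_of B n (lab_all B h n)

theorem thb_all (B : Box) (h : S5R) (n : ℕ) : THB n := Upp.thb_of B n (lab_all B h n)

theorem thr_all (B : Box) (h : S5R) (n : ℕ) : THR (n + 1) :=
  Upp.thr_of B (cls B) s4a n (lab_all B h n)

/-- **Finite generation of adjoint rings.** -/
theorem fg_all (B : Box) (h : S5R) (n : ℕ) : FG n := fg_of B n (tha_all B h n)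

end Vale.Agent.P277Z.FI
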