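import Vale.Agent.P277Z.FI.Sk
import Vale.Agent.P277Z.Lo.Base

/-!
# P277Z: Jacobian determinants on modifications and on blow up charts
-/

open scoped Manifold ContDiff Topology
open Set Filter
open Vale.Agent.P272.K (Cm Chart At)

noncomputable section

namespace Vale.Agent.P277Z.FI

open Lo

namespace J44

variable {n : ℕ} {W W' : Type} [TopologicalSpace W] [ChartedSpace (Cm n) W] [TopologicalSpace W']
  [ChartedSpace (Cm n) W']

theorem jd_eq {g : Fin n → W → ℂ} {e : Chart n W} {y : W} (he : At e y) (hg : ∀ i, Hol n (g i) y) :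
    jd g e y = (Matrix.of fun i l =>
      fderiv ℂ (fun z => g i (e.symm z)) (e y) (Pi.single l 1)).det := by
  rw [jd, fderiv_pi fun i => (hg i e he).differentiableAt, ← LinearMap.det_toMatrix']
  rfl

theorem jd_comp {g : Fin n → W → ℂ} {g' : Fin n → W' → ℂ} {e : Chart n W} {e' : Chart n W'}
    {φ : W' → W} {y : W'} (he' : At e' y) (he : At e (φ y)) (hg : ∀ i, Hol n (g i) (φ y))
    (hφ : AnalyticAt ℂ (fun z => e (φ (e'.symm z))) (e' y))
    (h : ∀ᶠ z in 𝓝 y, φ z ∈ e.source ∧ ∀ i, g' i z = g i (φ z)) :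
    jd g' e' y = jd g e (φ y) * LinearMap.det
      (fderiv ℂ (fun z => e (φ (e'.symm z))) (e' y) : Cm n →ₗ[ℂ] Cm n) := by
  have h1 : DifferentiableAt ℂ (fun z i => g i (e.symm z)) (e (φ (e'.symm (e' y)))) := by
    rw [e'.left_inv he'.2]
    exact (AnalyticAt.pi fun i => hg i e he).differentiableAt
  have h2 : (fun z i => g' i (e'.symm z)) =ᶠ[𝓝 (e' y)]
      (fun z i => g i (e.symm z)) ∘ fun z => e (φ (e'.symm z)) :=
    ((tendsto_symm he').eventually h).mono fun z a => funext fun i => by
      simp only [Function.comp, a.2, e.left_inv a.1]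
  rw [jd, jd, h2.fderiv_eq, fderiv_comp (f := fun z => e (φ (e'.symm z))) _ h1
    hφ.differentiableAt, e'.left_inv he'.2,
    ContinuousLinearMap.toLinearMap_comp, LinearMap.det_comp]

theorem gen_hol {N : ℕ} {K : Type} [Field K] [Algebra ℂ K] (M : Mdl n N K) {x : M.W} (hx : x ∈ M.F)
    (t : Fin n → K) : ∀ᶠ y in gen {x}, ∀ i, Hol n (M.val (t i)) y :=
  eventually_all.2 fun i => (mer_gen_hol (M.mer (t i) x hx)).mono fun _ ⟨_, a, b⟩ =>
    a.congr (b.mono fun _ => Eq.symm)

end J44

open J44

theorem jmd (n : ℕ) : JMD n := by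
  intro N K _ _ M M' m g t j h y hy e' he'
  have hx : m.g y ∈ M.F := m.img ▸ mem_image_of_mem _ hy
  have he := at_chartAt (n := n) (m.g y)
  set e := chartAt (Cm n) (m.g y)
  have h1 : AnalyticAt ℂ (fun z => e (m.g (e'.symm z))) (e' y) := AnalyticAt.pi fun i =>
    m.hol y hy (fun x => e x i) (fun _ hc => analyticAt_pi_iff.1 (trans_an he hc) i) e' he'
  have h2 := fun f => gen_iff.1 (m.val f) y hy
  filter_upwards [(m.dom y hy).eventually ((h _ hx e he).and ((gen_hol M hx g).and
      (gen_hol M hx t))), h2 j, gen_interior ((eventually_all.2 fun i => h2 (g i)).and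
      (eventually_all.2 fun i => h2 (t i))),
    gen_of_nhds ((m.cont y hy).eventually_mem (e.open_source.mem_nhds he.2)).eventually_nhds,
    gen_of_nhds ((e'.continuousAt he'.2).eventually h1.eventually_analyticAt),
    gen_of_nhds (e'.open_source.mem_nhds he'.2)] with z a b c d k l
  rw [jd_comp (g := fun i => M.val (g i)) ⟨he'.1, l⟩ ⟨he.1, d.self_of_nhds⟩ a.2.1 k
      (d.and (c.mono fun _ => And.left)),
    jd_comp (g := fun i => M.val (t i)) ⟨he'.1, l⟩ ⟨he.1, d.self_of_nhds⟩ a.2.2 k
      (d.and (c.mono fun _ => And.right)), a.1, b, mul_assoc]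

theorem jbl (n : ℕ) : JBL n := by
  intro N K _ _ M t i j c hij hi x hx e he
  set s := t j / t i - algebraMap ℂ K c with hs
  have h1 : ∀ᶠ y in gen {x}, M.val (t j) y = (M.val s y + c) * M.val (t i) y := by
    filter_upwards [gen_iff.1 (M.val_mul (s + algebraMap ℂ K c) (t i)) x hx,
      gen_iff.1 (M.val_add s (algebraMap ℂ K c)) x hx] with y a b
    rw [← M.val_const c y, ← b, ← a, hs, sub_add_cancel, div_mul_cancel₀ _ hi]
  filter_upwards [gen_interior h1, gen_hol M hx t, gen_hol M hx (Function.update t j s),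
    gen_of_nhds (e.open_source.mem_nhds he.2)] with y a b c' d
  have hy : At e y := ⟨he.1, d⟩
  have h2 : Hol n (M.val s) y := by simpa using c' j
  have h3 := (((h2 e hy).differentiableAt.hasFDerivAt.add_const c).mul
    (b i e hy).differentiableAt.hasFDerivAt).congr_of_eventuallyEq ((tendsto_symm hy).eventually a)
  rw [jd_eq hy b, jd_eq hy c']
  set A := Matrix.of fun k l =>
    fderiv ℂ (fun z => M.val (Function.update t j s k) (e.symm z)) (e y) (Pi.single l 1)
  have h4 : (Matrix.of fun k l => fderiv ℂ (fun z => M.val (t k) (e.symm z)) (e y) (Pi.single l 1))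
      = A.updateRow j (M.val (t i) y • A j + (M.val s y + c) • A i) := by
    ext k l
    by_cases hk : k = j
    · subst hk
      simp [A, h3.fderiv, hij, e.left_inv d, add_comm]
    · simp [A, hk]
  rw [h4, Matrix.det_updateRow_add, Matrix.det_updateRow_smul, Matrix.det_updateRow_smul,
    Matrix.updateRow_eq_self, Matrix.det_updateRow_eq_zero hij, mul_zero, add_zero]

end Vale.Agent.P277Z.FI
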