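import Vale.Agent.P277Z.Lo.All
import Vale.Agent.P277Z.Ps.Pos
import Vale.Agent.P277Z.Ps.Opn
import Vale.Agent.P277Z.Ps.Jet
import Vale.Agent.P277Z.Van.Sing
import Vale.Agent.P277Z.Coh.All
import Vale.Agent.P277Z.Lbd.All
import Vale.Agent.P277Z.Sub.Main
import Vale.Agent.P277Z.Lift.ExS
import Vale.Agent.P277Z.Lift.ExtF
import Vale.Agent.P277Z.Lift.ExtK
import Vale.Agent.P277Z.Lift.MetK
import Vale.Agent.P277Z.Lift.E34
import Vale.Agent.P277Z.Hl.Main
import Vale.Agent.P277Z.Hl.Posb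
import Vale.Agent.P277Z.Hir.All
import Vale.Agent.P277Z.Bir.Opn
import Vale.Agent.P277Z.Rst.All
import Vale.Agent.P277Z.Bl2.Main
import Vale.Agent.P277Z.Bert.Main
import Vale.Agent.P277Z.FI.Jac
import Vale.Agent.P277Z.FI.Jmd

/-!
# P277Z: the toolbox
-/

set_option linter.all false

namespace Vale.Agent.P277Z.FI

theorem jetA : JET := Ps.jet_of Van.jet

theorem ggfA : GGF := Ps.ggf_of Van.gg

theorem locA (n : ℕ) : LOC n := loc jetA n

theorem copA (n : ℕ) : COP n := cop jetA n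

theorem lbdA (n : ℕ) : LBD n := Lb.lbd_of (locA n)

theorem secA (n : ℕ) : SEC n := Lb.sec_of ggfA (locA n)

theorem posA (n : ℕ) : POS n := Ps.pos_of (locA n) (secA n) (lbdA n) ggfA

theorem subA (n : ℕ) : SUB n :=
  sub_of mk Lift.exs (locA _) (secA _) (lbdA _) (locA n) (secA n) (lbdA n) (posA n)

theorem hirA (n : ℕ) : HIRL n :=
  Hl.hirl_of Hir.stMain Hl.posb ggfA (locA n) (copA n) (secA n) (lbdA n)

theorem birA (n : ℕ) : BIR n := bir_of (locA n) (posA n) (copA n)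

theorem rstA (n : ℕ) : RST n := rst_of (locA _) (locA n) (posA _) (copA _) (subA n)

theorem surjA : Hl.SURJ := Hl.surj_of ggfA Hl.den Hl.desc Hl.top

theorem bl2A (n : ℕ) : BL2 n := Bl2.bl2 (locA n) (lbdA n) (posA n) surjA

theorem extkA (n : ℕ) : Lift.EXTK n :=
  Lift.extk_of Lift.extf (Lift.metK _) (locA _) (locA n) (posA _) (rstA n)

theorem ext34A (n : ℕ) : EXT34 n := Lift.ext34 locA posA rstA (extkA n)

theorem bertA (n : ℕ) : BERT n := Bert.bert_of (locA n)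

/-- The toolbox. -/
theorem box : Box :=
  ⟨locA, posA, fun n => C1.coh (lbdA n), subA, hirA, birA, rstA, bl2A, ext34A, co1, jac, jmd, jbl⟩

end Vale.Agent.P277Z.FI
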