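import Vale.Agent.P277Z.FI.Lm
import Vale.Agent.P277Z.FI.Jmd

/-!
# P277Z: restriction to a boundary component, geometric part
-/

set_option linter.all false

open Set Filter Topology
open Vale.Agent.P297 (Place)
open Vale.Agent.P297Z.Pl
open Vale.Agent.P272.K (Cm)

noncomputable section

namespace Vale.Agent.P277Z.FI

variable {n N : ℕ} {K : Type} [Field K] [Algebra ℂ K] {O : Type} [CommRing O] [Algebra O K]

theorem coord_perm {M : Mdl n N K} {x : M.F} {t : Fin n → K} (h : M.Coord x t)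
    (σ : Equiv.Perm (Fin n)) : M.Coord x fun i => t (σ i) := by
  refine ⟨fun i => h.1 _, fun e he => ?_⟩
  have h1 := h.2 e he
  rw [J44.jd_eq he fun i => (h.1 i).1] at h1
  rw [J44.jd_eq he fun i => (h.1 (σ i)).1]
  refine fun k => h1 ?_
  have := (Matrix.det_permute σ (Matrix.of fun i l =>
    fderiv ℂ (fun z => M.val (t i) (e.symm z)) (e x) (Pi.single l 1))).symm.trans k
  exact (mul_eq_zero.1 this).resolve_left (by
    rcases Int.units_eq_one_or (Equiv.Perm.sign σ) with k | k <;> simp [k])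

theorem hol_base {M : Mdl n N K} {c : Cm N → ℂ} (hc : AnalyticAt ℂ c 0) {x : M.W} (hx : x ∈ M.F) :
    Hol n (fun y => c (M.π y)) x := fun e he =>
  AnalyticAt.fun_comp (by rwa [e.left_inv he.2, (M.fib.self_of_nhdsSet x hx).2 hx])
    (AnalyticAt.pi fun i => M.hol x hx i e he)

variable {L : Type} [Field L] [Algebra ℂ L] {S : Mdl n N L} {M : Mdl (n + 1) N K} {P : Place K}

/-- the image of a point -/
abbrev ip (s : Sub S M P) (y : S.F) : M.F := ⟨s.ι y, s.mem y y.2⟩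

variable {s : Sub S M P}

theorem on_ip (s : Sub S M P) (y : S.F) : M.On (ip s y) P := (s.on _).2 ⟨y, y.2, rfl⟩

theorem pr_sub (s : Sub S M P) : M.Pr P :=
  let ⟨y, hy⟩ := S.conn.nonempty
  ⟨_, on_ip s ⟨y, hy⟩⟩

theorem res_O {y : S.F} {f : K} (hf : f ∈ M.O (ip s y)) : s.res f ∈ S.O y :=
  Hol.congr (s.hol y y.2 _ hf) ((s.val y f hf).mono fun _ => Eq.symm)

/-- the residue map on the base ring -/
def resO (s : Sub S M P) (hm : ∀ c : O, algebraMap O K c ∈ M.O₀) : O →+* L where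
  toFun c := s.res (algebraMap O K c)
  map_one' := by rw [map_one, res_one]
  map_mul' a b := by
    rw [map_mul, s.res_mul _ (O₀_ring (hm a) (pr_sub s)) _ (O₀_ring (hm b) (pr_sub s))]
  map_zero' := by rw [map_zero, res_zero']
  map_add' a b := by
    rw [map_add, s.res_add _ (O₀_ring (hm a) (pr_sub s)) _ (O₀_ring (hm b) (pr_sub s))]

theorem gd_sub (B : Box) [Algebra O L] (h : Gd O M) (hS : S.Proj)
    (hal : ∀ c : O, algebraMap O L c = s.res (algebraMap O K c)) : Gd O S where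
  proj := hS
  loc := B.loc n N L S hS
  pos := B.pos n N L S hS
  coh := B.coh n N L S hS
  mem c := Algebra.mem_iInf.2 fun y => hal c ▸ res_O (O₀_le (h.mem c) _)
  base c hc := by
    obtain ⟨o, ho⟩ := h.base c hc
    refine ⟨o, Lo.gen_iff.2 fun y hy => gen_of_nhds ?_⟩
    have h1 := M.val_eq (s.mem y hy) (hol_base hc (s.mem y hy)) (M.at_pt ho (ip s ⟨y, hy⟩))
    filter_upwards [s.val ⟨y, hy⟩ _ (O₀_le (h.mem o) _), s.cont.continuousAt.eventually h1,
      s.base.filter_mono (nhds_le_nhdsSet hy)] with z k1 k2 k3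
    rw [hal, k1, k2, k3]

theorem res_ne {f : K} (hf : f ≠ 0) (h : P.ord f = 0) : s.res f ≠ 0 := fun e => by
  have := (s.res_zero f ((ord_nonneg_iff P hf).1 h.ge)).1 e
  rw [h] at this
  simpa [hf] using this

theorem rsn_div (hL : Loc M) (hR : Rst s) {t : K} (ht : M.div t P = 1) {f : K} (hf : f ≠ 0) :
    ∃ u, u ≠ 0 ∧ rsn hR ht (M.div f) = S.div u := by
  have hP := pr_sub s
  have h1 : P.ord t = 1 := by exact_mod_cast (div_apply hL t hP).symm.trans ht
  have t0 : t ≠ 0 := fun e => by simp [e, ord_zero] at h1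
  have h2 := mul_ne_zero hf (zpow_ne_zero (-P.ord f) t0)
  have h3 : P.ord (f * t ^ (-P.ord f)) = 0 := by
    rw [ord_mul P hf (zpow_ne_zero _ t0), ord_zpow, h1]; ring
  refine ⟨_, res_ne (s := s) h2 h3, ?_⟩
  rw [← hR.div _ h2 h3, rsn_apply, nr_apply, div_mul hL hf (zpow_ne_zero _ t0), div_zpow hL,
    div_apply hL f hP, Int.cast_neg, neg_smul, sub_eq_add_neg]

/-- adjunction -/
theorem adj_can (hL : Loc M) (hL' : Loc S) (hR : Rst s) (hP : M.Snc {P}) {κ : Div K}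
    (hκ : IsCan M κ) :
    ∃ (t : K) (ht : M.div t P = 1), IsCan S (rsn hR ht (κ + Finsupp.single P 1)) := by
  obtain ⟨y, hy⟩ := S.conn.nonempty
  obtain ⟨t, h1, h2⟩ := hP.2 (ip s ⟨y, hy⟩)
  obtain ⟨k, hk⟩ := h2 P rfl (on_ip s _)
  obtain ⟨g, h3, hk'⟩ : ∃ g, M.Coord (ip s ⟨y, hy⟩) g ∧ M.Gn (ip s ⟨y, hy⟩) P (g 0) :=
    ⟨_, coord_perm h1 (Equiv.swap 0 k), by rwa [Equiv.swap_apply_left]⟩
  obtain ⟨κ₁, h4, -⟩ := can_coord hL h3
  obtain ⟨κ', h5, -⟩ := can_coord hL' (s.coord ⟨y, hy⟩ g 0 h3 hk')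
  obtain ⟨h6, h7⟩ := hR.adj g κ₁ κ' hk'.ord (fun i => hk.le _ (h3.1 _).1) h4 h5
  obtain ⟨f, hf, rfl⟩ := hκ.eq_coord hL h3 h4
  have ht : M.div (g 0) P = 1 := by
    rw [div_apply hL _ (pr_sub s), hk'.ord, Int.cast_one]
  obtain ⟨u, hu, e⟩ := rsn_div hL hR ht hf
  refine ⟨_, ht, ?_⟩
  rw [add_right_comm, map_add, e, rsn_apply, nr_apply, Finsupp.add_apply, h6,
    Finsupp.single_eq_same, zero_add, one_smul, ← h7]
  exact (isCan_of hL' h5).add_div hL' hu

/-- a prime divisor of `S` lies in at most one other component -/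
theorem rs_uniq (hL : Loc M) (hL' : Loc S) (hJ : JAC n) (hR : Rst s) {T : Set (Place K)}
    (hT : M.Snc T) (hP : P ∈ T) {R R' : Place K} (h1 : R ∈ T) (h2 : R' ∈ T) (h3 : R ≠ P)
    (h4 : R' ≠ P) {Q : Place L} (h5 : s.rs (Finsupp.single R 1) Q ≠ 0)
    (h6 : s.rs (Finsupp.single R' 1) Q ≠ 0) : R = R' := by
  obtain ⟨y, hy⟩ := dv_rs s _ Q (Finsupp.mem_support_iff.2 h5)
  obtain ⟨t, k1, k2⟩ := hT.2 (ip s y)
  obtain ⟨k, hk⟩ := k2 P hP (on_ip s _)
  have hc := s.coord y t k k1 hk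
  have key : ∀ R ∈ T, R ≠ P → s.rs (Finsupp.single R 1) Q ≠ 0 →
      ∃ a, M.Gn (ip s y) R (t (k.succAbove a)) ∧ Q.ord (s.res (t (k.succAbove a))) ≠ 0 := by
    intro R hR1 hR2 hR3
    rw [hR.rs y Q _ (Finsupp.single_eq_of_ne hR2.symm) hy,
      Finsupp.sum_single_index (zero_mul _), one_mul, Int.cast_ne_zero] at hR3
    have hon : M.On (ip s y) R := by_contra fun e => hR3 (by rw [eqn_off e, res_one, ord_one])
    obtain ⟨a, ha⟩ := k2 R hR1 hon
    obtain ⟨a, rfl⟩ := Fin.exists_succAbove_eq (x := a) (y := k)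
      (fun e => hR2 (gn_unique hL ha (e ▸ hk)))
    refine ⟨a, ha, fun e => hR3 ?_⟩
    have hg := eqn_gn hon
    have u1 := ha.dvd _ hg.mem (by rw [hg.ord]; exact one_pos)
    have u2 := hg.dvd _ ha.mem (by rw [ha.ord]; exact one_pos)
    have u3 : s.res (M.eqn (ip s y) R / t (k.succAbove a)) *
        s.res (t (k.succAbove a) / M.eqn (ip s y) R) = 1 := by
      rw [← s.res_mul _ (hk.le _ u1) _ (hk.le _ u2), div_mul_div_cancel₀ (gn_ne ha),
        div_self (gn_ne hg), res_one]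
    have u4 := ord_unit Q (ct_of_on hy _ (res_O u1))
      (eq_inv_of_mul_eq_one_right u3 ▸ ct_of_on hy _ (res_O u2))
    have u5 : s.res (t (k.succAbove a)) ≠ 0 :=
      res_ne (gn_ne ha) (hL.other _ R P _ ha ⟨_, hk⟩ hR2.symm)
    rw [← div_mul_cancel₀ (M.eqn (ip s y) R) (gn_ne ha), s.res_mul _ (hk.le _ u1) _
      (hk.le _ ha.mem), ord_mul Q (left_ne_zero_of_mul_eq_one u3) u5, u4, e, add_zero]
  obtain ⟨a, a1, a2⟩ := key R h1 h3 h5
  obtain ⟨b, b1, b2⟩ := key R' h2 h4 h6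
  by_cases hab : a = b
  · exact gn_unique hL a1 (hab ▸ b1)
  have j1 := hJ N L S hL' y _ _ 1 Q hc hy (fun j => (hc.1 j).1) (jac_refl _) one_ne_zero
  have j2 : ∀ j, 0 ≤ Q.ord (s.res (t (k.succAbove j))) := fun j =>
    ord_nonneg_of_mem Q (ct_of_on hy _ (hc.1 j).1)
  have j3 := Finset.sum_le_sum_of_subset_of_nonneg (Finset.subset_univ {a, b}) fun j _ _ => j2 j
  rw [Finset.sum_pair hab] at j3
  rw [ord_one] at j1
  have := j2 a
  have := j2 b
  omega

end Vale.Agent.P277Z.FI
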