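import Vale.Agent.P277Z.Gr.Res

/-!
# The graded ring of a graded family
-/

set_option linter.all false

noncomputable section

namespace P277Z.Gr

open DirectSum

variable {O K M : Type} [CommRing O] [CommRing K] [Algebra O K] [AddCommMonoid M] [DecidableEq M]

theorem Fam.gm {H : M → Submodule O K} (hH : Fam H) : SetLike.GradedMonoid H where
  one_mem := hH.one
  mul_mem := fun _ _ _ _ hf hg => hH.mul hf hg

/-- The direct sum of the parts. -/
def Rg {H : M → Submodule O K} (_ : Fam H) : Type := ⨁ a, H a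

variable {H : M → Submodule O K} (hH : Fam H)

instance : CommRing (Rg hH) :=
  haveI := hH.gm
  inferInstanceAs (CommRing (⨁ a, H a))

instance : Algebra O (Rg hH) :=
  haveI := hH.gm
  inferInstanceAs (Algebra O (⨁ a, H a))

namespace Rg

/-- the inclusion of a part -/
def lof (a : M) : H a →ₗ[O] Rg hH := DirectSum.lof O M (fun a => H a) a

open Classical in
/-- the homogeneous element of degree `a` given by `f` -/
def hm (a : M) (f : K) : Rg hH := if h : f ∈ H a then lof hH a ⟨f, h⟩ else 0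

/-- the homogeneous elements of degree `a` -/
def HH (a : M) : Submodule O (Rg hH) := LinearMap.range (lof hH a)

variable {hH} {a b : M} {f g : K}

theorem hm_eq (h : f ∈ H a) : hm hH a f = lof hH a ⟨f, h⟩ := dif_pos h

theorem mem_HH {x : Rg hH} : x ∈ HH hH a ↔ ∃ f ∈ H a, hm hH a f = x :=
  ⟨fun ⟨f, e⟩ => ⟨f, f.2, (hm_eq f.2).trans e⟩, fun ⟨_, h, e⟩ => ⟨_, (hm_eq h).symm.trans e⟩⟩

theorem hm_mem (h : f ∈ H a) : hm hH a f ∈ HH hH a := mem_HH.2 ⟨f, h, rfl⟩

theorem hm_add (h : f ∈ H a) (h' : g ∈ H a) : hm hH a (f + g) = hm hH a f + hm hH a g := by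
  rw [hm_eq h, hm_eq h', hm_eq (add_mem h h'), ← map_add]; rfl

theorem hm_smul (c : O) (h : f ∈ H a) : hm hH a (c • f) = c • hm hH a f := by
  rw [hm_eq h, hm_eq (Submodule.smul_mem _ c h), ← map_smul]; rfl

theorem hm_zero (a : M) : hm hH a 0 = 0 := by
  rw [hm_eq (zero_mem _)]; exact map_zero _

theorem hm_mul (h : f ∈ H a) (h' : g ∈ H b) : hm hH a f * hm hH b g = hm hH (a + b) (f * g) := by
  haveI := hH.gm
  rw [hm_eq h, hm_eq h', hm_eq (hH.mul h h')]
  exact DirectSum.of_mul_of (A := fun a => H a) _ _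

theorem hm_one : hm hH 0 1 = 1 := by
  rw [hm_eq hH.one]; rfl

theorem hm_inj (h : f ∈ H a) (h' : g ∈ H a) : hm hH a f = hm hH a g ↔ f = g := by
  refine ⟨fun e => ?_, fun e => by rw [e]⟩
  rw [hm_eq h, hm_eq h'] at e
  exact congrArg Subtype.val (DirectSum.of_injective (β := fun a => H a) a e)

theorem hm_eq_zero (h : f ∈ H a) : hm hH a f = 0 ↔ f = 0 := by
  rw [← hm_zero (hH := hH) a, hm_inj h (zero_mem _)]

theorem hm_pow (h : f ∈ H a) (k : ℕ) : hm hH a f ^ k = hm hH (k • a) (f ^ k) := by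
  induction k with
  | zero => rw [pow_zero, pow_zero, zero_smul, hm_one]
  | succ k ih => rw [pow_succ, ih, hm_mul (hH.pow h k) h, succ_nsmul, pow_succ]

theorem hm_prod {ι : Type*} (s : Finset ι) {d : ι → M} {u : ι → K} (h : ∀ i ∈ s, u i ∈ H (d i)) :
    ∏ i ∈ s, hm hH (d i) (u i) = hm hH (∑ i ∈ s, d i) (∏ i ∈ s, u i) := by
  classical
  induction s using Finset.induction_on with
  | empty => simp [hm_one]
  | insert i s hi ih =>
    have h' : ∀ j ∈ s, u j ∈ H (d j) := fun j hj => h j (Finset.mem_insert_of_mem hj)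
    rw [Finset.prod_insert hi, Finset.prod_insert hi, Finset.sum_insert hi, ih h',
      hm_mul (h i (Finset.mem_insert_self _ _)) (hH.prod s h')]

theorem fam_HH : Fam (HH hH) where
  one := hm_one (hH := hH) ▸ hm_mem hH.one
  mul := by
    intro a b x y hx hy
    obtain ⟨f, hf, rfl⟩ := mem_HH.1 hx
    obtain ⟨g, hg, rfl⟩ := mem_HH.1 hy
    rw [hm_mul hf hg]; exact hm_mem (hH.mul hf hg)

theorem prm_HH [NoZeroDivisors K] : Prm (HH hH) fun _ => ⊥ := by
  intro a b x y hx hy h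
  obtain ⟨f, hf, rfl⟩ := mem_HH.1 hx
  obtain ⟨g, hg, rfl⟩ := mem_HH.1 hy
  rw [hm_mul hf hg, Submodule.mem_bot, hm_eq_zero (hH.mul hf hg), mul_eq_zero] at h
  simpa [hm_eq_zero hf, hm_eq_zero hg] using h

theorem one_ne [Nontrivial K] : (1 : Rg hH) ≠ 0 := by
  rw [← hm_one, Ne, hm_eq_zero hH.one]; exact one_ne_zero

theorem fg_HH (h : (H a).FG) : (HH hH a).FG := by
  have : Module.Finite O (H a) := Module.Finite.iff_fg.2 h
  rw [HH, LinearMap.range_eq_map]
  exact (Module.Finite.fg_top).map _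

theorem HH_ne_bot : HH hH a ≠ ⊥ ↔ H a ≠ ⊥ := by
  simp only [Submodule.ne_bot_iff]
  constructor
  · rintro ⟨x, hx, h0⟩
    obtain ⟨f, hf, rfl⟩ := mem_HH.1 hx
    exact ⟨f, hf, fun e => h0 ((hm_eq_zero hf).2 e)⟩
  · rintro ⟨f, hf, h0⟩
    exact ⟨_, hm_mem hf, fun e => h0 ((hm_eq_zero hf).1 e)⟩

/-- The data of a homomorphism. -/
structure Hom (H : M → Submodule O K) {B : Type} [CommRing B] [Algebra O B] (ψ : M → K → B) :
    Prop where
  add : ∀ a, ∀ f ∈ H a, ∀ g ∈ H a, ψ a (f + g) = ψ a f + ψ a g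
  smul : ∀ a (c : O), ∀ f ∈ H a, ψ a (c • f) = c • ψ a f
  mul : ∀ a b, ∀ f ∈ H a, ∀ g ∈ H b, ψ (a + b) (f * g) = ψ a f * ψ b g
  one : ψ 0 1 = 1

variable (hH) in
/-- The homomorphism. -/
def lift {B : Type} [CommRing B] [Algebra O B] {ψ : M → K → B} (h : Hom H ψ) : Rg hH →ₐ[O] B :=
  haveI := hH.gm
  DirectSum.toAlgebra O (fun a => H a)
    (fun a =>
      { toFun := fun f => ψ a f
        map_add' := fun f g => h.add a f f.2 g g.2
        map_smul' := fun c f => h.smul a c f f.2 })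
    h.one fun {a b} f g => h.mul a b f f.2 g g.2

theorem lift_hm {B : Type} [CommRing B] [Algebra O B] {ψ : M → K → B} (h : Hom H ψ)
    (hf : f ∈ H a) : lift hH h (hm hH a f) = ψ a f := by
  haveI := hH.gm
  rw [hm_eq hf]
  exact DirectSum.toSemiring_of (A := fun a => H a) (fun a =>
      ({ toFun := fun f => ψ a f
         map_add' := fun f g => h.add a f f.2 g g.2
         map_smul' := fun c f => h.smul a c f f.2 } : H a →ₗ[O] B).toAddMonoidHom) h.one
    (fun {a b} f g => h.mul a b f f.2 g g.2) _ _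

theorem tr (S : AddSubmonoid M) : Tr H (fun _ => ⊥) (HH hH) (fun _ => ⊥) S (hm hH) where
  mem := fun _ _ _ hf => hm_mem hf
  add := fun _ _ _ hf _ hg => hm_add hf hg
  smul := fun _ _ c _ hf => hm_smul c hf
  mul := fun _ _ _ _ _ hf _ hg => (hm_mul hf hg).symm
  one := hm_one
  ker := fun _ _ _ hf => by simp [hm_eq_zero hf]
  surj := fun _ _ x hx => by
    obtain ⟨f, hf, rfl⟩ := mem_HH.1 hx
    exact ⟨f, hf, by simp⟩

theorem fg_of_HH [IsCancelAdd M] {S : AddSubmonoid M} (hS : S.FG) (h : FG (HH hH) (S : Set M)) :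
    FG H (S : Set M) :=
  (tr S).fgm_left hH fam_HH (@idl_bot _ _ _ _ _ _ _ (HH hH)) hS h

end Rg

end P277Z.Gr
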