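import Vale.Agent.P277Z.FI.Dv
import Vale.Agent.P277Z.FI.Rg
import Vale.Agent.P277Z.FG.Defs

/-!
# P277Z: the algebraic shadow of a model
-/

set_option linter.all false

open Set Filter Topology
open Vale.Agent.P297 (Place)
open Vale.Agent.P297Z.Pl
open Vale.Agent.P272.K (Cm)
open P277Z.Gr P277Z.Gr.Rg P277Z.FG

noncomputable section

namespace Vale.Agent.P277Z.FI

variable {n N : ℕ} {K : Type} [Field K] [Algebra ℂ K] {O : Type} [CommRing O] [Algebra O K]

/-- `M` is a good model over the ring `O`. -/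
structure Gd (O : Type) [CommRing O] [Algebra O K] (M : Mdl n N K) : Prop where
  proj : M.Proj
  loc : Loc M
  pos : Pos M
  coh : Coh M
  mem : ∀ c : O, algebraMap O K c ∈ M.O₀
  base : ∀ c : Cm N → ℂ, AnalyticAt ℂ c 0 →
    ∃ o : O, ∀ᶠ y in gen M.F, M.val (algebraMap O K o) y = c (M.π y)

variable {M : Mdl n N K}

/-- the sections as a module over `O` -/
def HO (h : Gd O M) (D : Div K) : Submodule O K where
  carrier := M.H0 D
  zero_mem' := (M.H0 D).zero_mem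
  add_mem' := (M.H0 D).add_mem
  smul_mem' := fun c f hf => by
    rw [Algebra.smul_def]; exact (M.H0 D).smul_mem ⟨_, h.mem c⟩ hf

theorem mem_HO {h : Gd O M} {D : Div K} {f : K} : f ∈ HO h D ↔ f ∈ M.H0 D := Iff.rfl

theorem fam_HO (h : Gd O M) : Fam (HO h) := ⟨(fam_H0 M).one, fun hf hg => (fam_H0 M).mul hf hg⟩

theorem Gd.span (h : Gd O M) :
    ∃ T : Finset K, (∀ t ∈ T, t ∈ M.O₀) ∧ ∀ f ∈ M.O₀, f ∈ Submodule.span O (T : Set K) := by
  obtain ⟨T, h1, h2⟩ := h.coh.base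
  refine ⟨T, h1, fun f hf => ?_⟩
  obtain ⟨c, hc, e⟩ := h2 f hf
  choose o ho using fun t => h.base (c t) (hc t)
  obtain ⟨x, hx⟩ := M.conn.nonempty
  have : f = ∑ t ∈ T, algebraMap O K (o t) * t := by
    refine M.eq_of_val ⟨x, hx⟩ (M.at_pt ?_ _)
    filter_upwards [Lo.gen_of_nhdsSet e, M.val_sum T fun t => algebraMap O K (o t) * t,
      (eventually_all_finset T).2 fun t _ => (M.val_mul (algebraMap O K (o t)) t).and (ho t)]
      with y k1 k2 k3
    rw [k1, k2]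
    exact Finset.sum_congr rfl fun t ht => by rw [(k3 t ht).1, (k3 t ht).2]
  rw [this]
  exact Submodule.sum_mem _ fun t ht => by
    rw [← Algebra.smul_def]; exact Submodule.smul_mem _ _ (Submodule.subset_span ht)

theorem fg_HO (h : Gd O M) (D : Div K) : (HO h D).FG := by
  classical
  obtain ⟨T, h1, h2⟩ := h.span
  obtain ⟨s, hs⟩ := Module.Finite.iff_fg.1 (h.coh.fin D)
  refine ⟨(T ×ˢ s).image fun p => p.1 * p.2, le_antisymm (Submodule.span_le.2 ?_) fun f hf => ?_⟩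
  · intro x hx
    obtain ⟨p, hp, rfl⟩ := Finset.mem_image.1 hx
    obtain ⟨k1, k2⟩ := Finset.mem_product.1 hp
    exact (M.H0 D).smul_mem ⟨_, h1 _ k1⟩ (hs ▸ Submodule.subset_span k2 : p.2 ∈ M.H0 D)
  · have hf' : f ∈ Submodule.span M.O₀ (s : Set K) := hs ▸ hf
    have key : ∀ c ∈ M.O₀, c * f ∈
        Submodule.span O (((T ×ˢ s).image fun p => p.1 * p.2 : Finset K) : Set K) := by
      clear hf
      induction hf' using Submodule.span_induction with
      | mem x hx =>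
        intro c hc
        exact mul_mem_of_span (h2 c hc) fun t ht => Submodule.subset_span
          (Finset.mem_image.2 ⟨(t, x), Finset.mem_product.2 ⟨ht, hx⟩, rfl⟩)
      | zero => intro c _; simp
      | add x y _ _ hx hy => intro c hc; rw [mul_add]; exact add_mem (hx c hc) (hy c hc)
      | smul a x _ hx =>
        intro c hc
        have e : c * a • x = (c * a) * x := by rw [mul_assoc]; rfl
        rw [e]; exact hx _ (mul_mem hc a.2)
    simpa using key 1 (one_mem _)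

theorem amp_seg (hP : Pos M) {A : Div K} (hA : M.Amp A) (D : Div K) :
    ∃ ε : ℝ, 0 < ε ∧ ∀ c, |c| ≤ ε → M.Amp (A + c • D) := by
  have key : ∀ D : Div K, ∃ ε : ℝ, 0 < ε ∧ ∀ c, 0 ≤ c → c ≤ ε → M.Amp (A + c • D) := fun D => by
    obtain ⟨ε, h0, h1⟩ := hP.opn A D hA
    refine ⟨ε, h0, fun c h2 h3 => ?_⟩
    rcases h2.eq_or_lt with rfl | h2
    · simpa using hA
    rcases h3.eq_or_lt with rfl | h3
    · exact h1
    have := hP.add _ _ (hP.smul _ _ (div_pos h2 h0) h1)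
      (hP.smul _ _ (sub_pos.2 ((div_lt_one h0).2 h3)) hA)
    rwa [smul_add, smul_smul, div_mul_cancel₀ _ h0.ne', add_right_comm, ← add_smul,
      add_sub_cancel, one_smul] at this
  obtain ⟨ε, h0, h1⟩ := key D
  obtain ⟨ε', h0', h1'⟩ := key (-D)
  refine ⟨min ε ε', lt_min h0 h0', fun c hc => ?_⟩
  rcases le_total 0 c with k | k
  · exact h1 c k ((le_abs_self c).trans (hc.trans (min_le_left _ _)))
  · simpa using h1' (-c) (neg_nonneg.2 k) ((neg_le_abs c).trans (hc.trans (min_le_right _ _)))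

theorem amp_box (hP : Pos M) {ι : Type*} (D : ι → Div K) (s : Finset ι) : ∀ A, M.Amp A →
    ∃ ε : ℝ, 0 < ε ∧ ∀ w : ι → ℝ, (∀ j ∈ s, |w j| ≤ ε) → M.Amp (A + ∑ j ∈ s, w j • D j) := by
  classical
  induction s using Finset.induction_on with
  | empty => exact fun A hA => ⟨1, one_pos, fun _ _ => by simpa using hA⟩
  | insert i s hi ih =>
    intro A hA
    have h2 := hP.smul _ (1 / 2) one_half_pos hA
    obtain ⟨ε, h0, h1⟩ := ih _ h2
    obtain ⟨ε', h0', h1'⟩ := amp_seg hP h2 (D i)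
    refine ⟨min ε ε', lt_min h0 h0', fun w hw => ?_⟩
    have := hP.add _ _ (h1' _ ((hw i (Finset.mem_insert_self _ _)).trans (min_le_right _ _)))
      (h1 w fun j hj => (hw j (Finset.mem_insert_of_mem hj)).trans (min_le_left _ _))
    rw [Finset.sum_insert hi]
    rwa [add_add_add_comm, ← add_smul, add_halves, one_smul] at this

/-- Divisors on a model. -/
structure Dat (M : Mdl n N K) where
  J : Type
  [fJ : Fintype J]
  [dJ : DecidableEq J]
  I : Type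
  [fI : Fintype I]
  [dI : DecidableEq I]
  D : J → Div K
  dvD : ∀ j, M.Dv (D j)
  int : ∀ j, IsInt (D j)
  kK : J → ℤ
  can : IsCan M (∑ j, (kK j : ℝ) • D j)
  P : I → Place K
  inj : Function.Injective P
  snc : M.Snc (range P)
  S : I → J → ℤ
  hS : ∀ i, ∑ j, (S i j : ℝ) • D j = Finsupp.single (P i) 1

attribute [instance] Dat.fJ Dat.dJ Dat.fI Dat.dI

namespace Dat

variable (d : Dat M)

/-- real combinations -/
def dR : (d.J → ℝ) →ₗ[ℝ] Div K := Fintype.linearCombination ℝ d.D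

theorem dR_apply (v : d.J → ℝ) : d.dR v = ∑ j, v j • d.D j := Fintype.linearCombination_apply _ _ _

/-- integral combinations -/
def dZ : (d.J → ℤ) →+ Div K := d.dR.toAddMonoidHom.comp cst

theorem dZ_eq (a : d.J → ℤ) : d.dZ a = d.dR (cst a) := rfl

theorem dZ_apply (a : d.J → ℤ) : d.dZ a = ∑ j, (a j : ℝ) • d.D j := d.dR_apply _

theorem dv_dR (v : d.J → ℝ) : M.Dv (d.dR v) := by
  rw [dR_apply]; exact dv_sum _ fun j _ => dv_smul (d.dvD j) _

theorem dv_dZ (a : d.J → ℤ) : M.Dv (d.dZ a) := d.dv_dR _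

theorem int_dZ (a : d.J → ℤ) : IsInt (d.dZ a) := by
  rw [dZ_apply]; exact IsInt.sum _ fun j _ => IsInt.zsmul (d.int j) _

theorem dZ_S (i : d.I) : d.dZ (d.S i) = Finsupp.single (d.P i) 1 := by rw [dZ_apply, d.hS]

theorem can' : IsCan M (d.dZ d.kK) := by rw [dZ_apply]; exact d.can

theorem pr (i : d.I) : M.Pr (d.P i) := d.snc.1 _ ⟨i, rfl⟩

/-- the boundary divisor with the coefficients `b` -/
def bd (b : d.I → ℝ) : Div K := ∑ i, b i • Finsupp.single (d.P i) (1 : ℝ)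

theorem bd_apply (b : d.I → ℝ) (i : d.I) : d.bd b (d.P i) = b i := by
  rw [bd, Finsupp.finset_sum_apply, Finset.sum_eq_single i]
  · simp
  · intro j _ h; simp [Finsupp.single_eq_of_ne (d.inj.ne h).symm]
  · simp

theorem bd_off (b : d.I → ℝ) {Q : Place K} (h : Q ∉ range d.P) : d.bd b Q = 0 := by
  rw [bd, Finsupp.finset_sum_apply]
  refine Finset.sum_eq_zero fun i _ => ?_
  rw [Finsupp.smul_apply, Finsupp.single_eq_of_ne (fun e => h ⟨i, e.symm⟩), smul_zero]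

theorem bd_ext {E : Div K} (h : ∀ Q, E Q ≠ 0 → Q ∈ range d.P) : E = d.bd fun i => E (d.P i) :=
  Finsupp.ext fun Q => by
    by_cases hQ : Q ∈ range d.P
    · obtain ⟨i, rfl⟩ := hQ; rw [bd_apply]
    · rw [d.bd_off _ hQ]; exact by_contra fun e => hQ (h Q e)

theorem bd_nonneg {b : d.I → ℝ} (h : ∀ i, 0 ≤ b i) : 0 ≤ d.bd b := fun Q => by
  by_cases hQ : Q ∈ range d.P
  · obtain ⟨i, rfl⟩ := hQ; rw [bd_apply]; exact h i
  · exact (d.bd_off _ hQ).ge

theorem exists_nat {E : Div K} (h : ∀ Q, E Q ≠ 0 → Q ∈ range d.P) (h0 : 0 ≤ E) (hi : IsInt E) :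
    ∃ e : d.I → ℕ, (∀ i, (e i : ℝ) = E (d.P i)) ∧ E = d.bd fun i => e i := by
  have : ∀ i, ∃ e : ℕ, (e : ℝ) = E (d.P i) := fun i => by
    obtain ⟨k, hk⟩ := hi (d.P i)
    have h1 : 0 ≤ k := by exact_mod_cast (hk ▸ h0 (d.P i) : (0 : ℝ) ≤ k)
    exact ⟨k.toNat, by rw [hk, ← Int.cast_natCast, Int.toNat_of_nonneg h1]⟩
  choose e he using this
  exact ⟨e, he, by simpa only [he] using d.bd_ext h⟩

variable (h : Gd O M)

theorem fam : Fam fun a => HO h (d.dZ a) := (fam_HO h).comap d.dZ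

/-- homogeneous elements -/
abbrev el (a : d.J → ℤ) (f : K) : Rg (d.fam h) := hm (d.fam h) a f

section el

variable {a b : d.J → ℤ} {f g : K}

theorem el_add (hf : f ∈ M.H0 (d.dZ a)) (hg : g ∈ M.H0 (d.dZ a)) :
    d.el h a (f + g) = d.el h a f + d.el h a g := hm_add (hH := d.fam h) hf hg

theorem el_smul (c : O) (hf : f ∈ M.H0 (d.dZ a)) : d.el h a (c • f) = c • d.el h a f :=
  hm_smul (hH := d.fam h) c hf

theorem el_mul (hf : f ∈ M.H0 (d.dZ a)) (hg : g ∈ M.H0 (d.dZ b)) :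
    d.el h a f * d.el h b g = d.el h (a + b) (f * g) := hm_mul (hH := d.fam h) hf hg

theorem el_pow (hf : f ∈ M.H0 (d.dZ a)) (k : ℕ) : d.el h a f ^ k = d.el h (k • a) (f ^ k) :=
  hm_pow (hH := d.fam h) hf k

theorem el_inj (hf : f ∈ M.H0 (d.dZ a)) (hg : g ∈ M.H0 (d.dZ a)) :
    d.el h a f = d.el h a g ↔ f = g := hm_inj (hH := d.fam h) hf hg

theorem el_eq_zero (hf : f ∈ M.H0 (d.dZ a)) : d.el h a f = 0 ↔ f = 0 :=
  hm_eq_zero (hH := d.fam h) hf

theorem el_one : d.el h 0 1 = 1 := hm_one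

theorem mul_mem (hf : f ∈ M.H0 (d.dZ a)) (hg : g ∈ M.H0 (d.dZ b)) :
    f * g ∈ M.H0 (d.dZ (a + b)) := by
  rw [map_add]; exact (fam_H0 M).mul hf hg

end el

omit h in
theorem one_S (i : d.I) : (1 : K) ∈ M.H0 (d.dZ (d.S i)) := by
  rw [dZ_S]; exact one_mem_H0 (Finsupp.single_nonneg.2 zero_le_one)

theorem sig_pow_mul (i : d.I) (k : ℕ) {a : d.J → ℤ} {f : K} (hf : f ∈ M.H0 (d.dZ (a - k • d.S i))) :
    f ∈ M.H0 (d.dZ a) ∧ d.el h (d.S i) 1 ^ k * d.el h (a - k • d.S i) f = d.el h a f := by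
  have h1 : (1 : K) ^ k ∈ M.H0 (d.dZ (k • d.S i)) := (d.fam h).pow (a := d.S i) (d.one_S i) k
  have h2 := d.mul_mem h1 hf
  rw [d.el_pow h (d.one_S i), d.el_mul h h1 hf]
  rw [add_sub_cancel, one_pow, one_mul] at h2 ⊢
  exact ⟨h2, rfl⟩

theorem dZ_sub_S (a : d.J → ℤ) (k : ℕ) (i : d.I) :
    d.dZ (a - k • d.S i) = d.dZ a - (k : ℝ) • Finsupp.single (d.P i) 1 := by
  rw [map_sub, map_nsmul, dZ_S, Nat.cast_smul_eq_nsmul]

include h in
theorem amp_open : IsOpen {v | M.Amp (d.dR v)} := by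
  refine Metric.isOpen_iff.2 fun v hv => ?_
  obtain ⟨ε, h0, h1⟩ := amp_box h.pos d.D Finset.univ _ hv
  refine ⟨ε, h0, fun w hw => ?_⟩
  have := h1 (w - v) fun j _ => by
    have k := (dist_pi_lt_iff h0).1 hw j
    rw [Real.dist_eq] at k
    exact k.le
  rwa [← dR_apply, ← map_add, add_sub_cancel] at this

include h in
theorem unit_eq {a : d.J → ℤ} {f g : K} (hf : f ∈ M.H0 (d.dZ a)) (hg : g ∈ M.H0 (d.dZ (-a)))
    (e : f * g = 1) : d.dZ a = -M.div f := by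
  have f0 := left_ne_zero_of_mul_eq_one e
  have h1 := div_add_nonneg h.loc (d.dv_dZ a) hf f0
  have h2 := div_add_nonneg h.loc (d.dv_dZ (-a)) hg (right_ne_zero_of_mul_eq_one e)
  rw [eq_inv_of_mul_eq_one_right e, div_inv h.loc, map_neg, ← neg_add, neg_nonneg] at h2
  exact eq_neg_of_add_eq_zero_right (le_antisymm h2 h1)

/-- The algebraic shadow. -/
@[reducible] def lm : LM O where
  J := d.J
  I := d.I
  R := Rg (d.fam h)
  H := HH (d.fam h)
  fam := fam_HH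
  prm := @prm_HH _ _ _ _ _ _ _ _ _ (d.fam h) _
  nt := one_ne
  fin := fun a => fg_HH (fg_HO h _)
  K := d.kK
  S := d.S
  σ i := d.el h (d.S i) 1
  σ_mem i := hm_mem (hH := d.fam h) (d.one_S i)
  σ_ne i := by rw [Ne, d.el_eq_zero h (d.one_S i)]; exact one_ne_zero
  sep := by
    intro i a x hx hk
    obtain ⟨f, hf, rfl⟩ := mem_HH.1 hx
    refine (d.el_eq_zero h hf).2 ?_
    by_contra f0
    obtain ⟨k, hk'⟩ := exists_nat_gt (((d.P i).ord f : ℝ) + d.dZ a (d.P i))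
    obtain ⟨z, hz, e⟩ := hk k
    obtain ⟨g, hg, rfl⟩ := mem_HH.1 hz
    obtain ⟨h1, h2⟩ := d.sig_pow_mul h i k hg
    obtain rfl := (d.el_inj h hf h1).1 (e.trans h2)
    have := (mem_HO.1 hg).resolve_left f0 _ (d.pr i)
    rw [dZ_sub_S] at this
    simp at this
    linarith
  Amp := {v | M.Amp (d.dR v)}
  amp_open := d.amp_open h
  amp_add := fun v hv w hw => by
    show M.Amp (d.dR _)
    rw [map_add]; exact h.pos.add _ _ hv hw
  amp_smul := fun t ht v hv => by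
    show M.Amp (d.dR _)
    rw [map_smul]; exact h.pos.smul _ _ ht hv
  amp_un := by
    intro a u hu u' hu' e t v hv
    obtain ⟨f, hf, rfl⟩ := mem_HH.1 hu
    obtain ⟨g, hg, rfl⟩ := mem_HH.1 hu'
    have hfg := d.mul_mem hf hg
    replace e := (d.el_mul h hf hg).symm.trans e
    rw [add_neg_cancel] at e hfg
    rw [← d.el_one h, d.el_inj h hfg (d.fam h).one] at e
    show M.Amp (d.dR _)
    rw [map_add, map_smul, ← dZ_eq, d.unit_eq h hf hg e, smul_neg, ← neg_smul]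
    exact amp_div h.loc h.pos hv (left_ne_zero_of_mul_eq_one e) _
  dis i j := ∀ x, M.On x (d.P i) → M.On x (d.P j) → False
  dis_symm := fun _ _ k x h1 h2 => k x h2 h1

theorem mem_H {a : d.J → ℤ} {x : (d.lm h).R} :
    x ∈ (d.lm h).H a ↔ ∃ f ∈ M.H0 (d.dZ a), d.el h a f = x := mem_HH

theorem el_mem {a : d.J → ℤ} {f : K} (hf : f ∈ M.H0 (d.dZ a)) : d.el h a f ∈ (d.lm h).H a :=
  hm_mem (hH := d.fam h) hf

theorem mem_Amp {v : d.J → ℝ} : v ∈ (d.lm h).Amp ↔ M.Amp (d.dR v) := Iff.rfl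

theorem dZ_D (e : d.I → ℕ) : d.dZ ((d.lm h).D e) = d.bd fun i => e i := by
  show d.dZ (∑ i, e i • d.S i) = _
  rw [map_sum, bd]
  exact Finset.sum_congr rfl fun i _ => by rw [map_nsmul, dZ_S, Nat.cast_smul_eq_nsmul]

theorem dR_DR (b : d.I → ℝ) : d.dR ((d.lm h).DR b) = d.bd b := by
  show d.dR (∑ i, b i • cst (d.S i)) = _
  rw [map_sum, bd]
  exact Finset.sum_congr rfl fun i _ => by rw [map_smul, ← dZ_eq, dZ_S]

theorem one_D (e : d.I → ℕ) : (1 : K) ∈ M.H0 (d.dZ ((d.lm h).D e)) := by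
  rw [dZ_D]; exact one_mem_H0 (d.bd_nonneg fun _ => Nat.cast_nonneg _)

theorem mon_eq (e : d.I → ℕ) : (d.lm h).mon e = d.el h ((d.lm h).D e) 1 := by
  show ∏ i, d.el h (d.S i) 1 ^ e i = d.el h (∑ i, e i • d.S i) 1
  simp only [d.el_pow h (d.one_S _)]
  rw [hm_prod (hH := d.fam h) _ fun i _ => (d.fam h).pow (a := d.S i) (d.one_S i) _]
  simp

theorem mem_Dv {i : d.I} {k : ℕ} {a : d.J → ℤ} {x : (d.lm h).R} :
    x ∈ (d.lm h).Dv i k a ↔
      ∃ f ∈ M.H0 (d.dZ a - (k : ℝ) • Finsupp.single (d.P i) 1), d.el h a f = x := by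
  rw [← dZ_sub_S]
  constructor
  · rintro ⟨z, hz, rfl⟩
    obtain ⟨g, hg, rfl⟩ := mem_HH.1 hz
    exact ⟨g, hg, (d.sig_pow_mul h i k hg).2.symm⟩
  · rintro ⟨g, hg, rfl⟩
    exact ⟨_, d.el_mem h hg, (d.sig_pow_mul h i k hg).2⟩

theorem el_mem_Dv {i : d.I} {k : ℕ} {a : d.J → ℤ} {f : K} (hf : f ∈ M.H0 (d.dZ a)) :
    d.el h a f ∈ (d.lm h).Dv i k a ↔
      f = 0 ∨ (k : ℝ) ≤ (d.P i).ord f + d.dZ a (d.P i) := by
  rw [mem_Dv]
  constructor
  · rintro ⟨g, hg, e⟩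
    have hg' : g ∈ M.H0 (d.dZ a) := H0_mono (sub_le_self _ (smul_nonneg (Nat.cast_nonneg k)
      (Finsupp.single_nonneg.2 zero_le_one))) hg
    obtain rfl := (d.el_inj h hg' hf).1 e
    refine hg.imp_right fun k' => ?_
    have := k' _ (d.pr i)
    simp at this
    linarith
  · intro k'
    refine ⟨f, ?_, rfl⟩
    by_cases f0 : f = 0
    · exact Or.inl f0
    refine Or.inr fun Q hQ => ?_
    by_cases e : Q = d.P i
    · subst e
      have := k'.resolve_left f0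
      simp
      linarith
    · simpa [Finsupp.single_eq_of_ne e] using hf.resolve_left f0 Q hQ

theorem un_el {a : d.J → ℤ} {f : K} (hf : f ≠ 0) (e : d.dZ a = -M.div f) :
    (d.lm h).Un a (d.el h a f) := by
  have h1 : f ∈ M.H0 (d.dZ a) := mem_H0_div h.loc (by rw [e, add_neg_cancel])
  have h2 : f⁻¹ ∈ M.H0 (d.dZ (-a)) :=
    mem_H0_div h.loc (by rw [map_neg, e, div_inv h.loc, neg_neg, neg_add_cancel])
  refine ⟨d.el_mem h h1, _, d.el_mem h h2, ?_⟩
  show d.el h a f * d.el h (-a) f⁻¹ = 1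
  rw [d.el_mul h h1 h2, add_neg_cancel, mul_inv_cancel₀ hf, el_one]

theorem un_one {a : d.J → ℤ} (e : d.dZ a = 0) : (d.lm h).Un a (d.el h a 1) :=
  d.un_el h one_ne_zero (by rw [e, div_one h.loc, neg_zero])

/-- a section whose divisor is supported on the boundary -/
theorem un_mon {a : d.J → ℤ} {f : K} (hf : f ≠ 0) {e : d.I → ℕ}
    (he : M.div f + d.dZ a = d.bd fun i => e i) :
    ∃ u, (d.lm h).Un (a - (d.lm h).D e) u ∧ d.el h a f = u * (d.lm h).mon e := by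
  have e1 : d.dZ (a - (d.lm h).D e) = -M.div f := by rw [map_sub, dZ_D, ← he]; abel
  refine ⟨_, d.un_el h hf e1, ?_⟩
  have h1 : f ∈ M.H0 (d.dZ (a - (d.lm h).D e)) := mem_H0_div h.loc (by rw [e1, add_neg_cancel])
  rw [mon_eq]
  exact ((d.el_mul h h1 (d.one_D h e)).trans (by rw [sub_add_cancel, mul_one])).symm

end Dat

/-- The class of the shadows of models. -/
def G (O : Type) [CommRing O] (n : ℕ) (X : LM O) : Prop :=
  ∃ (N : ℕ) (K : Type) (_ : Field K) (_ : Algebra ℂ K) (_ : Algebra O K) (M : Mdl n N K)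
    (h : Gd O M) (d : Dat M), X = d.lm h

end Vale.Agent.P277Z.FI
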