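import Vale.Agent.P277Z.FI.Res1

/-!
# P277Z: restriction to a boundary component
-/

set_option linter.all false

open Set Filter Topology
open Vale.Agent.P297 (Place)
open Vale.Agent.P297Z.Pl
open P277Z.Gr P277Z.Gr.Rg P277Z.FG

noncomputable section

namespace Vale.Agent.P277Z.FI

variable {n N : ℕ} {K : Type} [Field K] [Algebra ℂ K] {O : Type} [CommRing O] [Algebra O K]
  {L : Type} [Field L] [Algebra ℂ L] [Algebra O L] {S : Mdl n N L} {M : Mdl (n + 1) N K}

/-- the traces of the other components -/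
def TS (d : Dat M) (i : d.I) (s : Sub S M (d.P i)) : Set (Place L) :=
  {Q | ∃ R ∈ range d.P, R ≠ d.P i ∧ s.rs (Finsupp.single R 1) Q ≠ 0}

theorem TS_fin (d : Dat M) (i : d.I) (s : Sub S M (d.P i)) : (TS d i s).Finite :=
  (finite_iUnion fun j => (s.rs (Finsupp.single (d.P j) 1)).support.finite_toSet).subset
    fun _ ⟨_, ⟨j, e⟩, _, h⟩ => mem_iUnion.2 ⟨j, Finsupp.mem_support_iff.2 (e ▸ h)⟩

instance (d : Dat M) (i : d.I) (s : Sub S M (d.P i)) : Fintype (TS d i s) := (TS_fin d i s).fintype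

instance (d : Dat M) (i : d.I) (s : Sub S M (d.P i)) : DecidableEq (TS d i s) := Classical.decEq _

/-- The situation. -/
structure RC (O : Type) [CommRing O] [Algebra O K] [Algebra O L] (d : Dat M) (i : d.I)
    (s : Sub S M (d.P i)) (t : K) : Prop where
  h : Gd O M
  h' : Gd O S
  hR : Rst s
  ht : M.div t (d.P i) = 1
  hal : ∀ c : O, algebraMap O L c = s.res (algebraMap O K c)
  can : IsCan S (rsn hR ht (d.dZ (d.kK + d.S i)))
  jac : JAC n

namespace RC

variable {d : Dat M} {i : d.I} {s : Sub S M (d.P i)} {t : K} (c : RC O d i s t)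

/-- the restriction of divisors -/
abbrev ℓ : Div K →ₗ[ℝ] Div L := rsn c.hR c.ht

include c in
theorem snc : S.Snc (TS d i s) := (c.hR.snc _ (mem_range_self i) d.snc).1

/-- the divisors on `S` -/
@[reducible] def dat : Dat S where
  J := d.J ⊕ TS d i s
  I := TS d i s
  D := Sum.elim (fun j => c.ℓ (d.D j)) fun Q => Finsupp.single Q.1 1
  dvD := by
    rintro (j | Q)
    exacts [dv_rs s _, dv_single (c.snc.1 _ Q.2) _]
  int := by
    rintro (j | Q)
    · obtain ⟨k, hk⟩ := d.int j (d.P i)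
      refine rs_int c.hR (nr_self c.ht _) ?_
      rw [nr_apply, hk]
      exact IsInt.sub (d.int j) (IsInt.zsmul (int_div c.h.loc t) k)
    · exact IsInt.single _
  kK := Sum.elim (d.kK + d.S i) 0
  can := by simpa [d.dZ_apply, map_sum] using c.can
  P := Subtype.val
  inj := Subtype.val_injective
  snc := by rw [Subtype.range_coe]; exact c.snc
  S Q := Pi.single (Sum.inr Q) 1
  hS Q := by rw [Finset.sum_eq_single (Sum.inr Q)] <;> simp +contextual

/-- the map of the lattices -/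
def r : Matrix c.dat.J d.J ℤ := Matrix.fromRows 1 0

theorem r_mul (a : d.J → ℤ) : c.r.mulVec a = Sum.elim a 0 := by
  simp [r, Matrix.fromRows_mulVec]

theorem dZ_r (a : d.J → ℤ) : c.dat.dZ (c.r.mulVec a) = c.ℓ (d.dZ a) := by
  rw [r_mul, Dat.dZ_apply, Dat.dZ_apply]
  simp [map_sum]

theorem dR_r (v : d.J → ℝ) : c.dat.dR (rl c.r v) = c.ℓ (d.dR v) := by
  have : rl c.r v = Sum.elim v 0 := by
    rw [rl, r, Matrix.fromRows_map, Matrix.map_one _ Int.cast_zero Int.cast_one,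
      Matrix.map_zero _ Int.cast_zero]
    simp [Matrix.fromRows_mulVec]
  rw [this, Dat.dR_apply, Dat.dR_apply]
  simp [map_sum]

variable (d i) in
/-- the coefficient of the component -/
def w (a : d.J → ℤ) : ℤ := (d.int_dZ a (d.P i)).choose

theorem w_eq (a : d.J → ℤ) : (w d i a : ℝ) = d.dZ a (d.P i) := (d.int_dZ a _).choose_spec.symm

theorem w_add (a b : d.J → ℤ) : w d i (a + b) = w d i a + w d i b :=
  Int.cast_injective (α := ℝ) (by simp [w_eq])

theorem w_zero {a : d.J → ℤ} (h : d.dZ a (d.P i) = 0) : w d i a = 0 :=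
  Int.cast_injective (α := ℝ) (by simp [w_eq, h])

include c

theorem ord_t : (d.P i).ord t = 1 := by
  exact_mod_cast (div_apply c.h.loc t (d.pr i)).symm.trans c.ht

theorem t_ne : t ≠ 0 := fun e => by simpa [e, ord_zero] using c.ord_t

variable {a b : d.J → ℤ} {f g : K}

theorem nr_dZ (a : d.J → ℤ) : nr M (d.P i) t (d.dZ a) = d.dZ a - (w d i a : ℝ) • M.div t := by
  rw [nr_apply, w_eq]

theorem int_nr (a : d.J → ℤ) : IsInt (nr M (d.P i) t (d.dZ a)) := by
  rw [c.nr_dZ]; exact IsInt.sub (d.int_dZ a) (IsInt.zsmul (int_div c.h.loc t) _)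

theorem dv_nr (a : d.J → ℤ) : M.Dv (nr M (d.P i) t (d.dZ a)) :=
  dv_sub (d.dv_dZ a) (dv_smul (dv_div t) _)

theorem tw_mem (hf : f ∈ M.H0 (d.dZ a)) : f * t ^ w d i a ∈ M.H0 (nr M (d.P i) t (d.dZ a)) := by
  rw [c.nr_dZ]; exact mul_zpow_mem c.h.loc hf c.t_ne _

theorem tw_ring (hf : f ∈ M.H0 (d.dZ a)) : f * t ^ w d i a ∈ (d.P i).ring :=
  mem_ring_of_H0 (c.tw_mem hf) (d.pr i) (nr_self c.ht _)

theorem res_mem (hf : f ∈ M.H0 (d.dZ a)) :
    s.res (f * t ^ w d i a) ∈ S.H0 (c.dat.dZ (c.r.mulVec a)) := by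
  rw [dZ_r]; exact c.hR.sec _ (nr_self c.ht _) _ (c.tw_mem hf)

theorem hom : Hom (fun a => HO c.h (d.dZ a))
    fun a f => c.dat.el c.h' (c.r.mulVec a) (s.res (f * t ^ w d i a)) where
  add a f hf g hg := by
    rw [add_mul, s.res_add _ (c.tw_ring hf) _ (c.tw_ring hg),
      c.dat.el_add c.h' (c.res_mem hf) (c.res_mem hg)]
  smul a o f hf := by
    rw [← c.dat.el_smul c.h' o (c.res_mem hf), Algebra.smul_def, Algebra.smul_def, c.hal,
      mul_assoc, s.res_mul _ (O₀_ring (c.h.mem o) (d.pr i)) _ (c.tw_ring hf)]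
  mul a b f hf g hg := by
    rw [c.dat.el_mul c.h' (c.res_mem hf) (c.res_mem hg), Matrix.mulVec_add, w_add,
      zpow_add₀ c.t_ne, mul_mul_mul_comm, s.res_mul _ (c.tw_ring hf) _ (c.tw_ring hg)]
  one := by
    rw [Matrix.mulVec_zero, w_zero (by simp), zpow_zero, mul_one, res_one, Dat.el_one]

/-- the restriction of sections -/
def ρ : (d.lm c.h).R →ₐ[O] (c.dat.lm c.h').R := lift (d.fam c.h) c.hom

theorem ρ_el (hf : f ∈ M.H0 (d.dZ a)) :
    c.ρ (d.el c.h a f) = c.dat.el c.h' (c.r.mulVec a) (s.res (f * t ^ w d i a)) :=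
  lift_hm (hH := d.fam c.h) c.hom hf

omit c in
theorem ex_p (Q : TS d i s) : ∃ j, j ≠ i ∧ s.rs (Finsupp.single (d.P j) 1) Q ≠ 0 :=
  let ⟨_, ⟨j, e⟩, h1, h2⟩ := Q.2
  ⟨j, fun k => h1 (by rw [← e, k]), e ▸ h2⟩

omit c in
/-- the component that contains `Q` -/
def p (Q : TS d i s) : d.I := (ex_p Q).choose

theorem ℓ_single {j : d.I} (hj : j ≠ i) :
    c.ℓ (Finsupp.single (d.P j) 1) = c.dat.bd fun Q => ((if p Q = j then 1 else 0 : ℕ) : ℝ) := by
  have h1 := d.inj.ne hj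
  rw [rsn_of_zero c.hR c.ht (Finsupp.single_eq_of_ne h1.symm)]
  refine (c.dat.bd_ext fun Q hQ => ⟨⟨Q, _, ⟨j, rfl⟩, h1, hQ⟩, rfl⟩).trans
    (congrArg _ (funext fun Q => ?_))
  have h2 := (c.hR.snc _ (mem_range_self i) d.snc).2 _ ⟨j, rfl⟩ h1 Q
  split_ifs with e
  · subst e; simpa using h2.resolve_left (ex_p Q).choose_spec.2
  · by_contra k
    exact e (d.inj (rs_uniq c.h.loc c.h'.loc c.jac c.hR d.snc ⟨i, rfl⟩ ⟨_, rfl⟩ ⟨j, rfl⟩
      (d.inj.ne (ex_p Q).choose_spec.1) h1 (ex_p Q).choose_spec.2 (by simpa using k)))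

theorem amp_nr {A : Div K} (hA : M.Amp A) : M.Amp (nr M (d.P i) t A) := by
  rw [nr_apply, sub_eq_add_neg, ← neg_smul]; exact amp_div c.h.loc c.h.pos hA c.t_ne _

/-- the restriction -/
def res : Res (d.lm c.h) i (c.dat.lm c.h') where
  r := c.r
  ρ := c.ρ
  p := p
  p_ne Q := (ex_p Q).choose_spec.1
  mem a x hx := by
    obtain ⟨f, hf, rfl⟩ := (d.mem_H c.h).1 hx
    rw [c.ρ_el hf]; exact c.dat.el_mem _ (c.res_mem hf)
  ker a x hx := by
    obtain ⟨f, hf, rfl⟩ := (d.mem_H c.h).1 hx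
    rw [c.ρ_el hf, d.el_mem_Dv c.h hf]
    refine (c.dat.el_eq_zero _ (c.res_mem hf)).trans ((s.res_zero _ (c.tw_ring hf)).trans ?_)
    by_cases f0 : f = 0
    · simp [f0]
    have h1 := zpow_ne_zero (w d i a) c.t_ne
    rw [ord_mul _ f0 h1, ord_zpow, c.ord_t, ← w_eq]
    simp only [mul_eq_zero, f0, h1, false_or]
    norm_cast
    omega
  K_eq := ⟨_, c.dat.un_one c.h' (by rw [r_mul, sub_self, map_zero])⟩
  pull j hj := by
    have h1 := c.dat.un_mon c.h' (a := c.r.mulVec (d.S j)) (e := fun Q => if p Q = j then 1 else 0)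
      one_ne_zero (by rw [div_one c.h'.loc, zero_add, dZ_r, d.dZ_S, c.ℓ_single hj])
    have h2 : c.ρ (d.el c.h (d.S j) 1) = c.dat.el c.h' (c.r.mulVec (d.S j)) 1 := by
      rw [c.ρ_el (d.one_S j), w_zero (by rw [d.dZ_S, Finsupp.single_eq_of_ne (d.inj.ne hj).symm]),
        zpow_zero, mul_one, res_one]
    exact h2 ▸ h1
  amp A hA := by
    show S.Amp (c.dat.dR _)
    rw [dR_r]; exact c.hR.amp _ (nr_self c.ht _) (c.amp_nr hA)

theorem ℓ_bd {β : d.I → ℕ} (hβ : β i = 0) :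
    s.rs (d.bd fun j => β j) = c.dat.bd fun Q => β (p Q) := by
  rw [← rsn_of_zero c.hR c.ht (by rw [d.bd_apply, hβ, Nat.cast_zero]), Dat.bd, map_sum]
  have h1 : ∀ j, c.ℓ ((β j : ℝ) • Finsupp.single (d.P j) 1) =
      ∑ Q : TS d i s, (if p Q = j then (β j : ℝ) else 0) • Finsupp.single Q.1 (1 : ℝ) := fun j => by
    by_cases hj : j = i
    · simp [hj, hβ]
    rw [map_smul, c.ℓ_single hj, Dat.bd, Finset.smul_sum]
    exact Finset.sum_congr rfl fun Q _ => by split_ifs <;> simp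
  rw [Finset.sum_congr rfl fun j _ => h1 j, Finset.sum_comm]
  exact Finset.sum_congr rfl fun Q _ => by rw [← Finset.sum_smul]; simp

theorem dR_amp (m : ℕ) (β : d.I → ℕ) (a : d.J → ℤ) : d.dR ((d.lm c.h).amp i m β a) =
    d.dZ a - (m : ℝ) • (d.dZ d.kK + Finsupp.single (d.P i) 1) - d.bd fun j => β j := by
  rw [LM.amp, ← d.dZ_eq, map_sub, map_sub, map_nsmul, map_add, d.dZ_S, d.dZ_D,
    Nat.cast_smul_eq_nsmul]

theorem ext (hE : EXT34 n) : c.res.Ext := by
  classical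
  rintro Ps m β a ⟨h1, h2⟩ ⟨hm, ⟨h3, h4⟩, h5⟩ u₀ hu₀ o ho hθ
  obtain ⟨u, hu, rfl⟩ := (c.dat.mem_H c.h').1 hu₀
  change u ∈ S.H0 (c.dat.dZ (c.r.mulVec a)) at hu
  by_cases u0 : u = 0
  · exact ⟨0, zero_mem _, by rw [map_zero, eq_comm]; exact (c.dat.el_eq_zero _ hu).2 u0⟩
  have hu' : u ∈ S.H0 (s.rs (nr M (d.P i) t (d.dZ a))) := by rwa [c.dZ_r] at hu
  have hA := (d.mem_Amp c.h).1 h5
  rw [c.dR_amp] at hA
  have hsum : ∑ R ∈ (Finset.univ.erase i).image d.P \ Ps.image d.P, d.bd (fun j => β j) R ≤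
      ∑ l ∈ Psᶜ, (β l : ℝ) := by
    rw [← Finset.image_sdiff _ _ d.inj, Finset.sum_image d.inj.injOn]
    simp only [d.bd_apply]
    exact Finset.sum_le_sum_of_subset_of_nonneg (fun l hl => Finset.mem_compl.2
      (Finset.mem_sdiff.1 hl).2) fun _ _ _ => Nat.cast_nonneg _
  obtain ⟨f, hf, e⟩ := hE N K M c.h.proj L S (d.P i) s ((Finset.univ.erase i).image d.P)
    (Ps.image d.P) (d.dZ d.kK) _ (d.bd fun j => β j) m u c.h'.proj
    (snc_mono d.snc (insert_subset (mem_range_self i) (by simp)))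
    (by simp [d.inj.eq_iff]) (Finset.image_subset_image fun j hj => by
      simpa using fun e : j = i => h1 (e ▸ hj))
    (by
      simp only [Finset.forall_mem_image]
      exact fun x j hj l hl k1 k2 => congrArg _ (by_contra fun e => h2 j hj l hl e x k1 k2))
    d.can' (c.dv_nr a) (c.int_nr a) (nr_self c.ht _)
    (fun Q hQ => by
      rw [Finsupp.mem_support_iff] at hQ
      obtain ⟨j, rfl⟩ : Q ∈ range d.P := by_contra fun e => hQ (d.bd_off _ e)
      rw [d.bd_apply] at hQ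
      exact Finset.mem_image_of_mem _ (by simpa using fun e : j = i => hQ (by simp [e, h3])))
    (IsInt.sum _ fun j _ => IsInt.nsmul (IsInt.single _) _)
    (d.bd_nonneg fun _ => Nat.cast_nonneg _) hm
    (hsum.trans (by exact_mod_cast (Nat.le_add_left _ _).trans (h4 i)))
    (by
      simp only [Finset.forall_mem_image]
      intro j hj
      have := h4 j
      rw [if_pos hj] at this
      rw [d.bd_apply]
      exact (add_le_add_right hsum _).trans (by exact_mod_cast this))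
    (by
      convert amp_div c.h.loc c.h.pos hA c.t_ne (-w d i a) using 1
      rw [c.nr_dZ]; module) hu' u0 fun η hη => by
      obtain ⟨q, ν, θ₀, v, k1, k0, k3, k4, k5, k6⟩ := hθ η hη
      obtain ⟨θ, k2, rfl⟩ := (d.mem_H c.h).1 k0
      have k7 := c.res_mem k2
      have k8 : s.res (θ * t ^ w d i ν) ≠ 0 := fun e => k4
        ((c.ρ_el k2).trans ((c.dat.el_eq_zero _ k7).2 e))
      refine ⟨q, _, _, k1, c.dv_nr ν, c.int_nr ν, nr_self c.ht _, c.tw_mem k2, k8, ?_,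
        fun Q hQ => ?_⟩
      · have := (d.mem_Amp c.h).1 k5
        rw [map_sub, map_smul, map_add, map_smul, c.dR_amp, ← d.dZ_eq, ← d.dZ_eq] at this
        convert amp_div c.h.loc c.h.pos this c.t_ne
          (w d i ν - q * (w d i a + (m : ℝ)⁻¹ * w d i a)) using 1
        rw [c.nr_dZ, c.nr_dZ]; module
      rw [c.ℓ_bd h3]
      have hq : (0 : ℝ) ≤ q := Nat.cast_nonneg q
      by_cases hT : Q ∈ TS d i s
      · have l1 := ((c.dat.el_mem_Dv c.h' hu).1 (ho ⟨Q, hT⟩)).resolve_left u0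
        have l2 := not_or.1 fun e => (k3 ⟨Q, hT⟩).2
          ((c.ρ_el k2).symm ▸ (c.dat.el_mem_Dv c.h' k7).2 e :)
        obtain ⟨z, hz⟩ := c.dat.int_dZ (c.r.mulVec ν) Q
        have l3 : (Q.ord (s.res (θ * t ^ w d i ν)) : ℝ) + c.dat.dZ (c.r.mulVec ν) Q ≤ v ⟨Q, hT⟩ := by
          have := not_le.1 l2.2
          change (Q.ord _ : ℝ) + c.dat.dZ _ Q < _ at this
          rw [hz] at this ⊢
          norm_cast at this ⊢
          omega
        change _ ≤ _ + c.dat.dZ (c.r.mulVec a) Q at l1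
        rw [c.dZ_r] at l1 l3
        have l4 := k6 ⟨Q, hT⟩
        rw [Nat.cast_min, Nat.cast_mul] at l4
        rw [show Q = c.dat.P ⟨Q, hT⟩ from rfl, c.dat.bd_apply]
        exact (min_le_min_left _ l3).trans (l4.trans
          (mul_le_mul_of_nonneg_left (add_le_add_left l1 η) hq))
      · rw [c.dat.bd_off _ (by rwa [Subtype.range_coe]), mul_zero]
        exact (min_le_left _ _).trans
          (mul_nonneg hq (add_nonneg (hu'.resolve_left u0 Q hQ) hη.le))
  have hf' : f * t ^ (-w d i a) ∈ M.H0 (d.dZ a) := by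
    simpa [c.nr_dZ] using mul_zpow_mem c.h.loc hf c.t_ne (-w d i a)
  refine ⟨_, d.el_mem c.h hf', (c.ρ_el hf').trans ?_⟩
  rw [mul_assoc, ← zpow_add₀ c.t_ne, neg_add_cancel, zpow_zero, mul_one, e]
  rfl

end RC

/-- **Restriction to a boundary component.** -/
theorem res (B : Box) (n : ℕ) (X : LM O) (i : X.I) (hX : G O (n + 1) X) :
    ∃ Y, G O n Y ∧ ∃ Z : Res X i Y, Z.Ext := by
  obtain ⟨N, K, _, _, _, M, h, d, rfl⟩ := hX
  have h1 : M.Snc {d.P i} := snc_mono d.snc (singleton_subset_iff.2 (mem_range_self i))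
  obtain ⟨L, _, _, S, hS, ⟨s⟩⟩ := B.sub n N K M h.proj _ h1
  letI : Algebra O L := (resO s h.mem).toAlgebra
  have hR := B.rst n N K M h.proj L S _ s h1
  have h' : Gd O S := gd_sub B h hS fun _ => rfl
  obtain ⟨t, ht, h2⟩ := adj_can h.loc h'.loc hR h1 d.can'
  have c : RC O d i s t := ⟨h, h', hR, ht, fun _ => rfl, by rwa [map_add, d.dZ_S], B.jac n⟩
  exact ⟨_, ⟨N, L, _, _, _, S, c.h', c.dat, rfl⟩, c.res, c.ext (B.ext n)⟩

end Vale.Agent.P277Z.FI
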