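import Vale.Agent.P277Z.Spec

/-!
# P277Z, finite generation in the language of models. Statements.
-/

set_option linter.all false

open Set
open Vale.Agent.P297 (Place)

noncomputable section

namespace Vale.Agent.P277Z.FI

variable {n N : ℕ} {K : Type} [Field K] [Algebra ℂ K]

/-- `κ` is a canonical divisor. -/
def IsCan (M : Mdl n N K) (κ : Div K) : Prop :=
  ∃ (g : Fin n → K) (κ₀ : Div K) (f : K), f ≠ 0 ∧ M.Can g κ₀ ∧ κ = κ₀ + M.div f

/-- `L = d (κ + A + B)` with `A` ample and `B` a boundary supported on `T`. -/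
def Adj (M : Mdl n N K) (κ : Div K) (T : Set (Place K)) (L : Div K) : Prop :=
  ∃ d : ℝ, 0 < d ∧ ∃ B : Div K, (B.support : Set (Place K)) ⊆ T ∧ (∀ P, 0 ≤ B P ∧ B P ≤ 1) ∧
    M.Amp (d⁻¹ • L - κ - B)

/-- Finitely many integral adjoint divisors. -/
structure Sys (M : Mdl n N K) (κ : Div K) (T : Set (Place K)) (s : Finset (Div K)) : Prop where
  can : IsCan M κ
  fin : T.Finite
  snc : M.Snc T
  dv : ∀ L ∈ s, M.Dv L
  int : ∀ L ∈ s, IsInt L
  adj : ∀ L ∈ s, Adj M κ T L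

/-- Theorem A -/
def ThA (M : Mdl n N K) : Prop := ∀ κ T s, Sys M κ T s →
  P277Z.Gr.FG M.H0 (AddSubmonoid.closure (s : Set (Div K)) : Set (Div K))

/-- Theorem B -/
def ThB (M : Mdl n N K) : Prop := ∀ κ T s, Sys M κ T s → ∃ s' : Finset (Div K),
  (∀ L ∈ s', L ∈ AddSubmonoid.closure (s : Set (Div K)) ∧ M.H0 L ≠ ⊥) ∧
    ∀ L ∈ AddSubmonoid.closure (s : Set (Div K)), M.H0 L ≠ ⊥ →
      ∃ m : ℕ, 0 < m ∧ m • L ∈ AddSubmonoid.closure (s' : Set (Div K))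

/-- **THA** -/
def THA (n : ℕ) : Prop := ForM n fun _ _ _ _ M => ThA M

/-- **THB** -/
def THB (n : ℕ) : Prop := ForM n fun _ _ _ _ M => ThB M

/-- **S5M**: non-vanishing (Cascini and Lazic, section 5) -/
def S5M : Prop := ∀ n, (∀ k ≤ n, THA k ∧ THB k) → THB (n + 1)

open Classical in
/-- **EXT34**: the lifting theorem (Cascini and Lazic, Theorem 3.4, with slack).
`L = m (κ + P) + β + A`, the components of `β` in `Big` are pairwise disjoint. -/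
def EXT34 (n : ℕ) : Prop := ForM (n + 1) fun N K _ _ M => ∀ (L' : Type) [Field L'] [Algebra ℂ L']
  (S : Mdl n N L') (P : Place K) (s : Sub S M P) (T Big : Finset (Place K)) (κ L β : Div K) (m : ℕ)
  (u : L'), S.Proj → M.Snc (insert P (T : Set (Place K))) → P ∉ T → Big ⊆ T →
  (∀ x, ∀ R ∈ Big, ∀ R' ∈ Big, M.On x R → M.On x R' → R = R') →
  IsCan M κ → M.Dv L → IsInt L → L P = 0 → β.support ⊆ T → IsInt β → 0 ≤ β → 0 < m →
  ∑ R ∈ T \ Big, β R ≤ m →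
  (∀ R ∈ Big, β R + ∑ R ∈ T \ Big, β R ≤ m) →
  M.Amp (L - (m : ℝ) • (κ + Finsupp.single P 1) - β) →
  u ∈ S.H0 (s.rs L) → u ≠ 0 →
  (∀ η : ℝ, 0 < η → ∃ (q : ℕ) (D : Div K) (θ : K), 0 < q ∧ M.Dv D ∧ IsInt D ∧ D P = 0 ∧
    θ ∈ M.H0 D ∧ s.res θ ≠ 0 ∧
    M.Amp ((q : ℝ) • (L + (m : ℝ)⁻¹ • (L - (m : ℝ) • (κ + Finsupp.single P 1) - β)) - D) ∧
    ∀ Q, S.Pr Q → min (q * s.rs β Q) (Q.ord (s.res θ) + s.rs D Q) ≤
      q * (Q.ord u + s.rs L Q + η)) →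
  ∃ f ∈ M.H0 L, s.res f = u

/-- **BL2**: the blow up of the intersection of two transversal smooth prime divisors -/
def BL2 (n : ℕ) : Prop := ForM n fun N K _ _ M => ∀ R R' : Place K, R ≠ R' → M.Snc {R, R'} →
  ∃ (M' : Mdl n N K) (m : Mod M' M), M'.Proj ∧ ∀ (y : M'.F) (x : M.F) (t : Fin n → K),
    m.g y = x → M.Coord x t →
    (¬ (M.On x R ∧ M.On x R') → M'.Coord y t) ∧
    ∀ i j, M.Gn x R (t i) → M.Gn x R' (t j) → ∃ c : ℂ,
      M'.Coord y (Function.update t j (t j / t i - algebraMap ℂ K c)) ∨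
      M'.Coord y (Function.update t i (t i / t j - algebraMap ℂ K c))

/-- **CO1**: coordinates are local equations -/
def CO1 (n : ℕ) : Prop := ∀ (N : ℕ) (K : Type) [Field K] [Algebra ℂ K] (M : Mdl n N K), Loc M →
  ∀ x t i, M.Coord x t → t i ≠ 0 ∧ ∀ Q, M.On x Q → 0 < Q.ord (t i) → M.Gn x Q (t i)

/-- **JAC**: the order of a Jacobian determinant -/
def JAC (n : ℕ) : Prop := ∀ (N : ℕ) (K : Type) [Field K] [Algebra ℂ K] (M : Mdl n N K), Loc M →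
  ∀ x t g j Q, M.Coord x t → M.On x Q → (∀ i, g i ∈ M.O x) → M.Jac g t j → j ≠ 0 →
    ∑ i, Q.ord (g i) ≤ Q.ord j + 1

/-- **JMD**: Jacobian determinants can be computed on a modification -/
def JMD (n : ℕ) : Prop := ∀ (N : ℕ) (K : Type) [Field K] [Algebra ℂ K] (M M' : Mdl n N K)
  (_ : Mod M' M) (g t : Fin n → K) (j : K), M.Jac g t j → M'.Jac g t j

/-- **JBL**: the Jacobian determinant of a blow up chart -/
def JBL (n : ℕ) : Prop := ∀ (N : ℕ) (K : Type) [Field K] [Algebra ℂ K] (M : Mdl n N K)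
  (t : Fin n → K) (i j : Fin n) (c : ℂ), i ≠ j → t i ≠ 0 →
    M.Jac t (Function.update t j (t j / t i - algebraMap ℂ K c)) (t i)

/-- The toolbox in all dimensions. -/
structure Box : Prop where
  loc : ∀ n, LOC n
  pos : ∀ n, POS n
  coh : ∀ n, COH n
  sub : ∀ n, SUB n
  hir : ∀ n, HIRL n
  bir : ∀ n, BIR n
  rst : ∀ n, RST n
  bl2 : ∀ n, BL2 n
  ext : ∀ n, EXT34 n
  co1 : ∀ n, CO1 n
  jac : ∀ n, JAC n
  jmd : ∀ n, JMD n
  jbl : ∀ n, JBL n

end Vale.Agent.P277Z.FI
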