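import Vale.Agent.P277Z.FI.Dv

/-!
# P277Z: the blow up of a stratum of codimension two, in terms of divisors. Statement.
-/

set_option linter.all false

open Set
open Vale.Agent.P297 (Place)

noncomputable section

namespace Vale.Agent.P277Z.FI

open Classical in
/-- **BLL** -/
def BLL (n : ℕ) : Prop := ForM n fun N K _ _ M => ∀ (T : Set (Place K)) (R R' : Place K),
  M.Snc T → R ∈ T → R' ∈ T → R ≠ R' →
  ∃ (M' : Mdl n N K) (_ : Mod M' M), M'.Proj ∧ M'.Snc (T ∪ Exc M' M) ∧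
    (∀ y, ¬ (M'.On y R ∧ M'.On y R')) ∧
    (∀ y, ∀ Q ∈ Exc M' M, ∀ Q' ∈ Exc M' M, M'.On y Q → M'.On y Q' → Q = Q') ∧
    (∀ Q ∈ Exc M' M, ∀ P ∈ T,
      M.pull M' (Finsupp.single P 1) Q = if P = R ∨ P = R' then 1 else 0) ∧
    ∀ g κ κ', M.Can g κ → M'.Can g κ' → ∀ Q ∈ Exc M' M, (κ' - M.pull M' κ) Q = 1

end Vale.Agent.P277Z.FI
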